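import Mathlib

namespace Vale.Agent.P064

open Finset

variable {X : Type} [DecidableEq X]

/-- Weight of `W` under independent sampling of `E` at rate `p`. -/
def bw (E : Finset X) (p : ℝ) (W : Finset X) : ℝ := p ^ W.card * (1 - p) ^ (E \ W).card

lemma bw_nonneg (E : Finset X) {p : ℝ} (h0 : 0 ≤ p) (h1 : p ≤ 1) (W : Finset X) :
    0 ≤ bw E p W :=
  mul_nonneg (pow_nonneg h0 _) (pow_nonneg (by linarith) _)

lemma bw_sum (E : Finset X) (p : ℝ) : ∑ W ∈ E.powerset, bw E p W = 1 := by
  have h := prod_add (fun _ : X => p) (fun _ : X => 1 - p) E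
  simp only [prod_const, add_sub_cancel, one_pow] at h
  exact h.symm

lemma bw_insert {E : Finset X} {x : X} (hx : x ∉ E) (p : ℝ) {W : Finset X} (hW : W ⊆ E) :
    bw (insert x E) p W = (1 - p) * bw E p W ∧
      bw (insert x E) p (insert x W) = p * bw E p W := by
  have hxW : x ∉ W := fun h => hx (hW h)
  have e1 : insert x E \ W = insert x (E \ W) := by
    rw [insert_sdiff_of_notMem _ hxW]
  have e2 : insert x E \ insert x W = E \ W := by
    ext y
    simp only [mem_sdiff, mem_insert]
    constructor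
    · rintro ⟨h1, h2⟩
      exact ⟨h1.resolve_left fun h => h2 (Or.inl h), fun h => h2 (Or.inr h)⟩
    · rintro ⟨h1, h2⟩
      exact ⟨Or.inr h1, fun h => h.elim (fun h => hx (h ▸ h1)) h2⟩
  constructor
  · rw [bw, bw, e1, card_insert_of_notMem (by simp [hx]), pow_succ]; ring
  · rw [bw, bw, e2, card_insert_of_notMem hxW, pow_succ]; ring

lemma bw_union (E : Finset X) (p r : ℝ) : ∀ f : Finset X → ℝ,
    ∑ U ∈ E.powerset, ∑ V ∈ E.powerset, bw E p U * bw E r V * f (U ∪ V)
      = ∑ W ∈ E.powerset, bw E (1 - (1 - p) * (1 - r)) W * f W := by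
  induction E using Finset.induction_on with
  | empty => intro f; simp [bw]
  | @insert x E hx ih =>
    intro f
    set c := 1 - (1 - p) * (1 - r) with hc
    have hR : ∑ W ∈ (insert x E).powerset, bw (insert x E) c W * f W
        = (1 - c) * ∑ W ∈ E.powerset, bw E c W * f W
          + c * ∑ W ∈ E.powerset, bw E c W * f (insert x W) := by
      rw [sum_powerset_insert hx, mul_sum, mul_sum]
      congr 1 <;> refine sum_congr rfl fun W hW => ?_
      · rw [(bw_insert hx c (mem_powerset.mp hW)).1]; ring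
      · rw [(bw_insert hx c (mem_powerset.mp hW)).2]; ring
    rw [hR, ← ih f, ← ih fun W => f (insert x W)]
    simp only [mul_sum, ← sum_add_distrib]
    rw [sum_powerset_insert hx, ← sum_add_distrib]
    refine sum_congr rfl fun U hU => ?_
    rw [sum_powerset_insert hx, sum_powerset_insert hx, ← sum_add_distrib, ← sum_add_distrib,
      ← sum_add_distrib]
    refine sum_congr rfl fun V hV => ?_
    obtain ⟨a1, a2⟩ := bw_insert hx p (mem_powerset.mp hU)
    obtain ⟨b1, b2⟩ := bw_insert hx r (mem_powerset.mp hV)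
    rw [a1, a2, b1, b2, insert_union, union_insert, insert_union, union_insert, insert_idem]
    ring

/-- The support of a weight inside `E`. -/
noncomputable def supp (E : Finset X) (mu : Finset X → ℝ) : Finset (Finset X) :=
  E.powerset.filter fun S => mu S ≠ 0

/-- `W` contains a member of the support. -/
def Hit (E : Finset X) (mu : Finset X → ℝ) (W : Finset X) : Prop :=
  ∃ S ∈ supp E mu, S ⊆ W

open Classical in
/-- Probability that a random sample contains a member of the support. -/
noncomputable def hitProb (E : Finset X) (mu : Finset X → ℝ) (p : ℝ) : ℝ :=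
  ∑ W ∈ E.powerset, bw E p W * (if Hit E mu W then (1:ℝ) else 0)

open Classical in
lemma hitProb_mono (E : Finset X) (mu : Finset X → ℝ) {p p' : ℝ} (h0 : 0 ≤ p) (h : p ≤ p')
    (h1 : p' ≤ 1) : hitProb E mu p ≤ hitProb E mu p' := by
  rcases eq_or_lt_of_le (h.trans h1) with hp | hp
  · have : p' = p := le_antisymm (by linarith) h
    rw [this]
  set r := (p' - p) / (1 - p) with hr
  have hr0 : 0 ≤ r := div_nonneg (by linarith) (by linarith)
  have hr1 : r ≤ 1 := by rw [hr, div_le_one (by linarith)]; linarith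
  have he : p' = 1 - (1 - p) * (1 - r) := by
    rw [hr]; field_simp [show (1 - p) ≠ 0 by linarith]; ring
  rw [hitProb, hitProb, he, ← bw_union]
  calc ∑ U ∈ E.powerset, bw E p U * (if Hit E mu U then (1:ℝ) else 0)
      = ∑ U ∈ E.powerset, ∑ V ∈ E.powerset,
          bw E p U * bw E r V * (if Hit E mu U then (1:ℝ) else 0) := by
        refine sum_congr rfl fun U _ => ?_
        simp only [mul_assoc]
        rw [← mul_sum, ← sum_mul, bw_sum, one_mul]
    _ ≤ _ := by
        refine sum_le_sum fun U _ => sum_le_sum fun V _ => mul_le_mul_of_nonneg_left ?_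
          (mul_nonneg (bw_nonneg E h0 (by linarith) U) (bw_nonneg E hr0 hr1 V))
        by_cases hU : Hit E mu U
        · have : Hit E mu (U ∪ V) := by
            obtain ⟨S, hS, hSU⟩ := hU; exact ⟨S, hS, hSU.trans subset_union_left⟩
          simp [hU, this]
        · simp only [if_neg hU]; split_ifs <;> norm_num

/-- A minimum fragment of `S` with respect to the sample `W`. -/
noncomputable def frag (E : Finset X) (mu : Finset X → ℝ) (S W : Finset X) : Finset X :=
  if h : ((supp E mu).filter (· ⊆ S ∪ W)).Nonempty then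
    (exists_min_image _ (fun S' => (S' \ W).card) h).choose \ W
  else ∅

lemma frag_spec {E : Finset X} {mu : Finset X → ℝ} {S : Finset X} (hS : S ∈ supp E mu)
    (W : Finset X) :
    frag E mu S W ⊆ S \ W ∧ (∃ S' ∈ supp E mu, S' \ W = frag E mu S W) ∧
      ∀ S' ∈ supp E mu, S' ⊆ W ∪ frag E mu S W → frag E mu S W ⊆ S' := by
  have h : ((supp E mu).filter (· ⊆ S ∪ W)).Nonempty :=
    ⟨S, mem_filter.mpr ⟨hS, subset_union_left⟩⟩
  set S0 := (exists_min_image _ (fun S' => (S' \ W).card) h).choose with hS0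
  obtain ⟨hmem, hmin⟩ := (exists_min_image _ (fun S' => (S' \ W).card) h).choose_spec
  rw [← hS0] at hmem hmin
  have hf : frag E mu S W = S0 \ W := by rw [frag, dif_pos h]
  rw [hf]
  obtain ⟨hs, hsub⟩ := mem_filter.mp hmem
  have hTS : S0 \ W ⊆ S \ W := by
    intro x hx
    rw [mem_sdiff] at hx ⊢
    exact ⟨(mem_union.mp (hsub hx.1)).resolve_right hx.2, hx.2⟩
  refine ⟨hTS, ⟨S0, hs, rfl⟩, fun S' hS' hle => ?_⟩
  have h1 : S' \ W ⊆ S0 \ W := fun x hx => by
    rw [mem_sdiff] at hx
    exact (mem_union.mp (hle hx.1)).resolve_left hx.2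
  have h2 : S' ⊆ S ∪ W := fun x hx => by
    rcases mem_union.mp (hle hx) with h' | h'
    · exact mem_union_right _ h'
    · exact mem_union_left _ (mem_sdiff.mp (hTS h')).1
  have h3 := hmin S' (mem_filter.mpr ⟨hS', h2⟩)
  rw [← eq_of_subset_of_card_le h1 h3]
  exact sdiff_subset

/-- The truncated fragment weight. -/
noncomputable def push (E : Finset X) (mu : Finset X → ℝ) (W : Finset X) (m : ℕ)
    (T : Finset X) : ℝ :=
  ∑ S ∈ (supp E mu).filter (fun S => frag E mu S W = T ∧ T.card ≤ m), mu S

/-- Admissible weights: nonnegative, on sets of size at most `l`, and `kap`-spread. -/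
structure Spread (E : Finset X) (mu : Finset X → ℝ) (kap : ℝ) (l : ℕ) : Prop where
  nonneg : ∀ S, 0 ≤ mu S
  size : ∀ S ∈ supp E mu, S.card ≤ l
  bound : ∀ V : Finset X, ∑ S ∈ (supp E mu).filter (V ⊆ ·), mu S ≤ kap ^ V.card

lemma spread_push {E : Finset X} {mu : Finset X → ℝ} {kap : ℝ} {l : ℕ}
    (h : Spread E mu kap l) (W : Finset X) (m : ℕ) : Spread E (push E mu W m) kap m := by
  refine ⟨fun T => sum_nonneg fun S _ => h.nonneg S, fun T hT => ?_, fun V => ?_⟩
  · simp only [supp, mem_filter] at hT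
    obtain ⟨S, hS, -⟩ := exists_ne_zero_of_sum_ne_zero hT.2
    exact (mem_filter.mp hS).2.2
  · refine le_trans ?_ (h.bound V)
    calc ∑ T ∈ (supp E (push E mu W m)).filter (V ⊆ ·), push E mu W m T
        ≤ ∑ T ∈ E.powerset.filter (V ⊆ ·), push E mu W m T := by
          refine sum_le_sum_of_subset_of_nonneg ?_ fun T _ _ => sum_nonneg fun S _ => h.nonneg S
          intro T hT
          simp only [supp, mem_filter] at hT ⊢
          exact ⟨hT.1.1, hT.2⟩
      _ = ∑ S ∈ supp E mu, ∑ T ∈ (E.powerset.filter (V ⊆ ·)).filter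
            (fun T => frag E mu S W = T ∧ T.card ≤ m), mu S := by
          simp only [push]
          exact sum_comm' (by intro T S; simp; tauto)
      _ ≤ ∑ S ∈ supp E mu, if V ⊆ S then mu S else 0 := by
          refine sum_le_sum fun S hS => ?_
          rw [sum_const, nsmul_eq_mul]
          set Ts := (E.powerset.filter (V ⊆ ·)).filter
            (fun T => frag E mu S W = T ∧ T.card ≤ m) with hTs
          rcases Ts.eq_empty_or_nonempty with he | ⟨T, hT⟩
          · rw [he]; simp only [card_empty, Nat.cast_zero, zero_mul]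
            split_ifs
            · exact h.nonneg S
            · exact le_rfl
          · simp only [hTs, mem_filter] at hT
            have hV : V ⊆ S := hT.1.2.trans (hT.2.1 ▸ (frag_spec hS W).1.trans sdiff_subset)
            rw [if_pos hV]
            refine mul_le_of_le_one_left (h.nonneg S) ?_
            have : Ts.card ≤ 1 := card_le_one.mpr fun a ha b hb => by
              simp only [hTs, mem_filter] at ha hb
              exact ha.2.1.symm.trans hb.2.1
            exact_mod_cast this
      _ = _ := by rw [sum_filter]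

lemma push_total {E : Finset X} (mu : Finset X → ℝ) (W : Finset X) (m : ℕ) :
    ∑ T ∈ supp E (push E mu W m), push E mu W m T =
      ∑ S ∈ (supp E mu).filter (fun S => (frag E mu S W).card ≤ m), mu S := by
  rw [supp, sum_filter_ne_zero]
  simp only [push]
  rw [sum_comm' (t' := (supp E mu).filter (fun S => (frag E mu S W).card ≤ m))
    (s' := fun S => ({frag E mu S W} : Finset (Finset X)))]
  · simp
  · intro T S
    simp only [mem_powerset, mem_filter, mem_singleton]
    constructor
    · rintro ⟨hT, hS, h1, h2⟩; exact ⟨h1.symm, hS, h1 ▸ h2⟩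
    · rintro ⟨h1, hS, h2⟩
      refine ⟨h1 ▸ (((frag_spec hS W).1.trans sdiff_subset).trans
        (mem_powerset.mp (mem_filter.mp hS).1)), hS, h1.symm, h1 ▸ h2⟩

lemma fragment_loss {E : Finset X} {mu : Finset X → ℝ} {kap p : ℝ} {l : ℕ}
    (h : Spread E mu kap l) (hk : 0 ≤ kap) (hp : 64 * kap ≤ p) (hp0 : 0 < p) (hp1 : p ≤ 1) :
    ∑ W ∈ E.powerset, bw E p W *
        (∑ S ∈ (supp E mu).filter (fun S => ¬ (frag E mu S W).card ≤ l / 2), mu S)
      ≤ (1 / 16 : ℝ) ^ (l / 2 + 1) := by
  set m := l / 2
  set P := supp E mu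
  set idx := E.powerset.sigma fun W => P.filter (fun S => ¬ (frag E mu S W).card ≤ m) with hidx
  set g : (_ : Finset X) × Finset X → Finset X × Finset X := fun x =>
    (x.1 ∪ frag E mu x.2 x.1, frag E mu x.2 x.1) with hg
  set tgt : Finset (Finset X × Finset X) := (E.powerset ×ˢ E.powerset).filter fun zt =>
    m < zt.2.card ∧ zt.2 ⊆ zt.1 ∧ ∀ S ∈ P, S ⊆ zt.1 → zt.2 ⊆ S
  have hmaps : ∀ x ∈ idx, g x ∈ tgt ∧ (∃ S ∈ P, S ⊆ (g x).1) ∧
      (g x).2 ⊆ x.2 ∧ x.1 = (g x).1 \ (g x).2 := by
    rintro ⟨W, S⟩ hx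
    simp only [hidx, mem_sigma, mem_powerset, mem_filter, not_le] at hx
    obtain ⟨hW, hS, hm⟩ := hx
    obtain ⟨h1, ⟨S', hS', hS'e⟩, h3⟩ := frag_spec hS W
    have hTE : frag E mu S W ⊆ E :=
      (h1.trans sdiff_subset).trans (mem_powerset.mp (mem_filter.mp hS).1)
    refine ⟨?_, ⟨S', hS', ?_⟩, h1.trans sdiff_subset, ?_⟩
    · simp only [tgt, hg, mem_filter, mem_product, mem_powerset]
      exact ⟨⟨union_subset hW hTE, hTE⟩, hm, subset_union_right, h3⟩
    · intro x hx
      simp only [hg, mem_union]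
      by_cases hxW : x ∈ W
      · exact Or.inl hxW
      · exact Or.inr (hS'e ▸ mem_sdiff.mpr ⟨hx, hxW⟩)
    · simp only [hg]
      ext x
      simp only [mem_sdiff, mem_union]
      constructor
      · intro hx; exact ⟨Or.inl hx, fun h => (mem_sdiff.mp (h1 h)).2 hx⟩
      · rintro ⟨h | h, h'⟩
        · exact h
        · exact absurd h h'
  set tgt' := tgt.filter fun zt => ∃ S ∈ P, S ⊆ zt.1
  have hfib : ∑ W ∈ E.powerset, bw E p W *
      (∑ S ∈ P.filter (fun S => ¬ (frag E mu S W).card ≤ m), mu S)
      = ∑ zt ∈ tgt', ∑ x ∈ idx.filter (fun x => g x = zt), bw E p x.1 * mu x.2 := by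
    rw [sum_fiberwise_of_maps_to (fun x hx =>
      mem_filter.mpr ⟨(hmaps x hx).1, (hmaps x hx).2.1⟩), sum_sigma]
    exact sum_congr rfl fun W _ => mul_sum _ _ _
  rw [hfib]
  have hfiber : ∀ zt ∈ tgt', ∑ x ∈ idx.filter (fun x => g x = zt), bw E p x.1 * mu x.2
      ≤ bw E p zt.1 * (1 / 64) ^ zt.2.card := by
    rintro ⟨Z, T⟩ hzt
    simp only [tgt', tgt, mem_filter, mem_product, mem_powerset] at hzt
    obtain ⟨⟨⟨hZ, -⟩, -, hTZ, -⟩, -⟩ := hzt
    set fib := idx.filter (fun x => g x = (Z, T))
    have h1 : ∀ x ∈ fib, x.1 = Z \ T ∧ x.2 ∈ P.filter (T ⊆ ·) := by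
      intro x hx
      simp only [fib, mem_filter] at hx
      obtain ⟨-, -, hsub, he⟩ := hmaps x hx.1
      rw [hx.2] at hsub he
      have hxi := hx.1
      simp only [hidx, mem_sigma, mem_filter] at hxi
      exact ⟨he, mem_filter.mpr ⟨hxi.2.1, hsub⟩⟩
    have h2 : ∑ x ∈ fib, bw E p x.1 * mu x.2 ≤ bw E p (Z \ T) * kap ^ T.card := by
      calc ∑ x ∈ fib, bw E p x.1 * mu x.2 = bw E p (Z \ T) * ∑ x ∈ fib, mu x.2 := by
            rw [mul_sum]; exact sum_congr rfl fun x hx => by rw [(h1 x hx).1]
        _ ≤ bw E p (Z \ T) * ∑ S ∈ P.filter (T ⊆ ·), mu S := by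
            refine mul_le_mul_of_nonneg_left ?_ (bw_nonneg E hp0.le hp1 _)
            have hinj : Set.InjOn (fun x : (_ : Finset X) × Finset X => x.2) fib :=
              fun x hx y hy hxy =>
                Sigma.ext ((h1 x hx).1.trans (h1 y hy).1.symm) (heq_of_eq hxy)
            rw [← sum_image (f := mu) hinj]
            refine sum_le_sum_of_subset_of_nonneg ?_ fun S _ _ => h.nonneg S
            intro S hS
            obtain ⟨x, hx, rfl⟩ := mem_image.mp hS
            exact (h1 x hx).2
        _ ≤ _ := mul_le_mul_of_nonneg_left (h.bound T) (bw_nonneg E hp0.le hp1 _)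
    refine h2.trans ?_
    have e1 : (Z \ T).card + T.card = Z.card := card_sdiff_add_card_eq_card hTZ
    have e2 : (E \ (Z \ T)).card = (E \ Z).card + T.card := by
      rw [card_sdiff_of_subset (sdiff_subset.trans hZ), card_sdiff_of_subset hZ]
      have := card_le_card hZ
      omega
    calc bw E p (Z \ T) * kap ^ T.card
        = p ^ (Z \ T).card * (1 - p) ^ (E \ Z).card * ((1 - p) * kap) ^ T.card := by
          rw [bw, e2, pow_add, mul_pow]; ring
      _ ≤ p ^ (Z \ T).card * (1 - p) ^ (E \ Z).card * (p * (1 / 64)) ^ T.card := by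
          refine mul_le_mul_of_nonneg_left
            (pow_le_pow_left₀ (mul_nonneg (by linarith) hk) ?_ _)
            (mul_nonneg (pow_nonneg hp0.le _) (pow_nonneg (by linarith) _))
          nlinarith
      _ = _ := by rw [bw, ← e1, pow_add, mul_pow]; ring
  refine (sum_le_sum hfiber).trans ?_
  calc ∑ zt ∈ tgt', bw E p zt.1 * (1 / 64) ^ zt.2.card
      ≤ ∑ zt ∈ tgt', bw E p zt.1 * (1 / 64) ^ (m + 1) := by
        refine sum_le_sum fun zt hzt => mul_le_mul_of_nonneg_left ?_ (bw_nonneg E hp0.le hp1 _)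
        have : m < zt.2.card := (mem_filter.mp (mem_filter.mp hzt).1).2.1
        exact pow_le_pow_of_le_one (by norm_num) (by norm_num) this
    _ = ∑ Z ∈ E.powerset, ∑ zt ∈ tgt'.filter (fun zt => zt.1 = Z),
          bw E p zt.1 * (1 / 64) ^ (m + 1) := by
        refine (sum_fiberwise_of_maps_to (fun zt hzt => ?_) _).symm
        exact (mem_product.mp (mem_filter.mp (mem_filter.mp hzt).1).1).1
    _ ≤ ∑ Z ∈ E.powerset, bw E p Z * ((4 : ℝ) ^ (m + 1) * (1 / 64) ^ (m + 1)) := by
        refine sum_le_sum fun Z _ => ?_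
        rw [sum_congr rfl (fun zt hzt => by rw [(mem_filter.mp hzt).2]), sum_const, nsmul_eq_mul,
          mul_comm, mul_assoc]
        refine mul_le_mul_of_nonneg_left ?_ (bw_nonneg E hp0.le hp1 _)
        rw [mul_comm]
        refine mul_le_mul_of_nonneg_right ?_ (by positivity)
        set fz := tgt'.filter (fun zt => zt.1 = Z)
        rcases fz.eq_empty_or_nonempty with he | ⟨z0, hz0⟩
        · rw [he]; simp
        simp only [fz, tgt', tgt, mem_filter] at hz0
        obtain ⟨⟨-, ⟨S0, hS0, hS0Z⟩⟩, rfl⟩ := hz0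
        have hinj : fz.card ≤ S0.powerset.card := by
          refine card_le_card_of_injOn (fun zt => zt.2) ?_ ?_
          · intro zt hzt
            simp only [fz, tgt', tgt, mem_coe, mem_filter] at hzt
            simp only [mem_coe, mem_powerset]
            exact hzt.1.1.2.2.2 S0 hS0 (hzt.2 ▸ hS0Z)
          · intro a ha b hb hab
            simp only [fz, mem_coe, mem_filter] at ha hb
            exact Prod.ext (ha.2.trans hb.2.symm) hab
        have : fz.card ≤ 4 ^ (m + 1) := by
          refine hinj.trans ?_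
          rw [card_powerset, show (4:ℕ) = 2 ^ 2 from rfl, ← pow_mul]
          refine Nat.pow_le_pow_right (by norm_num) ?_
          have := h.size S0 hS0
          omega
        exact_mod_cast this
    _ = (1 / 16 : ℝ) ^ (m + 1) := by
        rw [← sum_mul, bw_sum, one_mul, ← mul_pow]; norm_num

open Classical in
lemma hitProb_one {E : Finset X} {mu : Finset X → ℝ} (h : (supp E mu).Nonempty) :
    hitProb E mu 1 = 1 := by
  rw [hitProb, sum_eq_single E]
  · obtain ⟨S, hS⟩ := h
    have : Hit E mu E := ⟨S, hS, mem_powerset.mp (mem_filter.mp hS).1⟩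
    simp [bw, this]
  · intro W hW hne
    have : (E \ W).card ≠ 0 := by
      rw [Ne, card_eq_zero, sdiff_eq_empty_iff_subset]
      exact fun hc => hne (subset_antisymm (mem_powerset.mp hW) hc)
    simp [bw, zero_pow this]
  · intro hc; simp at hc

open Classical in
/-- The spread lemma with explicit constants: sampling at rate `64 * kap` per round, one round
per halving of the set size, leaves a loss of less than `1/4`. -/
theorem spread_hit {kap : ℝ} (hk : 0 < kap) (k : ℕ) :
    ∀ (E : Finset X) (mu : Finset X → ℝ) (l : ℕ), l < 2 ^ k → Spread E mu kap l →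
      (∑ S ∈ supp E mu, mu S) - (1/4 - (1/4) * (1/4:ℝ) ^ l)
        ≤ hitProb E mu (min 1 (64 * kap * k)) := by
  induction k with
  | zero =>
    intro E mu l hl h
    obtain rfl : l = 0 := by simpa using hl
    simp only [pow_zero, mul_one, sub_self, sub_zero, Nat.cast_zero, mul_zero,
      min_eq_right zero_le_one]
    rcases (supp E mu).eq_empty_or_nonempty with he | hne
    · rw [he, sum_empty]
      exact sum_nonneg fun W _ => mul_nonneg (bw_nonneg E le_rfl zero_le_one W)
        (by split_ifs <;> norm_num)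
    · have htot : ∑ S ∈ supp E mu, mu S ≤ 1 := by simpa using h.bound ∅
      have hall : ∀ W : Finset X, Hit E mu W := by
        obtain ⟨S, hS⟩ := hne
        have : S = ∅ := card_eq_zero.mp (Nat.le_zero.mp (h.size S hS))
        exact fun W => ⟨S, hS, by rw [this]; exact empty_subset _⟩
      refine htot.trans ((bw_sum E 0).symm.le.trans (le_of_eq ?_))
      rw [hitProb]
      refine sum_congr rfl fun W _ => ?_
      rw [if_pos (hall W), mul_one]
  | succ k ih =>
    intro E mu l hl h
    rcases (supp E mu).eq_empty_or_nonempty with he | hne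
    · rw [he, sum_empty]
      refine le_trans ?_ (sum_nonneg fun W _ => mul_nonneg
        (bw_nonneg E (le_min zero_le_one (by positivity)) (min_le_left _ _) W)
        (by split_ifs <;> norm_num))
      have : (1/4:ℝ) ^ l ≤ 1 := pow_le_one₀ (by norm_num) (by norm_num)
      linarith
    have htot : ∑ S ∈ supp E mu, mu S ≤ 1 := by simpa using h.bound ∅
    have herr : (0:ℝ) ≤ 1/4 - 1/4 * (1/4:ℝ) ^ l := by
      have : (1/4:ℝ) ^ l ≤ 1 := pow_le_one₀ (by norm_num) (by norm_num)
      linarith
    rcases le_total 1 (64 * kap * ((k + 1 : ℕ) : ℝ)) with hbig | hsmall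
    · rw [min_eq_left hbig, hitProb_one hne]; linarith
    rw [min_eq_right hsmall]
    push_cast at hsmall ⊢
    set p := 64 * kap with hp
    have hp0 : 0 < p := by positivity
    have hk0 : (0:ℝ) ≤ (k:ℝ) := Nat.cast_nonneg k
    have hp1 : p ≤ 1 := by nlinarith
    set r := min 1 (p * (k:ℝ)) with hr
    have hr0 : 0 ≤ r := le_min zero_le_one (by positivity)
    have hr1 : r ≤ 1 := min_le_left _ _
    set m := l / 2 with hm
    have hstep : ∀ W ∈ E.powerset, (∑ T ∈ supp E (push E mu W m), push E mu W m T)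
        - (1/4 - (1/4) * (1/4:ℝ) ^ m) ≤ ∑ V ∈ E.powerset,
          bw E r V * (if Hit E mu (W ∪ V) then (1:ℝ) else 0) := by
      intro W _
      refine (ih E _ m (by rw [hm]; rw [pow_succ] at hl; omega) (spread_push h W m)).trans ?_
      rw [hitProb]
      refine sum_le_sum fun V _ => mul_le_mul_of_nonneg_left ?_ (bw_nonneg E hr0 hr1 V)
      by_cases hV : Hit E (push E mu W m) V
      · have : Hit E mu (W ∪ V) := by
          obtain ⟨T, hT, hTV⟩ := hV
          obtain ⟨S, hS, -⟩ := exists_ne_zero_of_sum_ne_zero (mem_filter.mp hT).2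
          rw [mem_filter] at hS
          obtain ⟨-, ⟨S', hS', he⟩, -⟩ := frag_spec hS.1 W
          refine ⟨S', hS', fun x hx => ?_⟩
          by_cases hxW : x ∈ W
          · exact mem_union_left _ hxW
          · refine mem_union_right _ (hTV ?_)
            rw [← hS.2.1, ← he]; exact mem_sdiff.mpr ⟨hx, hxW⟩
        simp [hV, this]
      · simp only [if_neg hV]; split_ifs <;> norm_num
    have hmono : hitProb E mu (1 - (1 - p) * (1 - r)) ≤ hitProb E mu (p * ((k:ℝ) + 1)) := by
      refine hitProb_mono E mu ?_ ?_ hsmall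
      · nlinarith
      · have : r ≤ p * k := min_le_right _ _
        nlinarith
    refine le_trans ?_ hmono
    rw [hitProb, ← bw_union]
    simp only [mul_assoc, ← mul_sum]
    have h1 : ∑ W ∈ E.powerset, bw E p W *
        ((∑ T ∈ supp E (push E mu W m), push E mu W m T) - (1/4 - (1/4) * (1/4:ℝ) ^ m))
        ≤ ∑ W ∈ E.powerset, bw E p W * ∑ V ∈ E.powerset,
          bw E r V * (if Hit E mu (W ∪ V) then (1:ℝ) else 0) :=
      sum_le_sum fun W hW => mul_le_mul_of_nonneg_left (hstep W hW) (bw_nonneg E hp0.le hp1 W)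
    refine le_trans ?_ h1
    have h2 := fragment_loss h hk.le (le_of_eq hp.symm) hp0 hp1
    have h3 : ∀ W, (∑ T ∈ supp E (push E mu W m), push E mu W m T) = (∑ S ∈ supp E mu, mu S)
        - ∑ S ∈ (supp E mu).filter (fun S => ¬ (frag E mu S W).card ≤ m), mu S := by
      intro W
      rw [push_total, eq_sub_iff_add_eq, sum_filter_add_sum_filter_not]
    simp only [h3, mul_sub, sum_sub_distrib, ← sum_mul, bw_sum, one_mul]
    rcases Nat.eq_zero_or_pos l with hl0 | hlpos
    · have hz : ∀ W, (supp E mu).filter (fun S => ¬ (frag E mu S W).card ≤ m) = ∅ := by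
        intro W
        refine filter_eq_empty_iff.mpr fun S hS => not_not.mpr ?_
        have := card_le_card ((frag_spec hS W).1.trans sdiff_subset)
        have := h.size S hS
        omega
      simp only [hz, sum_empty, mul_zero, sum_const_zero]
      have hm0 : m = 0 := by omega
      simp [hm0, hl0]
    have h4 : (1/4:ℝ) ^ l ≤ (1/4) * (1/4) ^ m := by
      rw [← pow_succ']
      exact pow_le_pow_of_le_one (by norm_num) (by norm_num) (by omega)
    have h5 : (1/16:ℝ) ^ (m + 1) ≤ (1/16) * (1/4) ^ m := by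
      rw [pow_succ']
      exact mul_le_mul_of_nonneg_left
        (pow_le_pow_left₀ (by norm_num) (by norm_num) m) (by norm_num)
    have h6 : (0:ℝ) ≤ (1/4) ^ m := by positivity
    linarith

end Vale.Agent.P064
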