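import Vale.Agent.P064.Scales
import Vale.Agent.P064.Spread

namespace Vale.Agent.P064

open Finset

variable {n : ℕ}

/-- Relabelling of potential edges by a vertex permutation. -/
def edgeAct (s : Equiv.Perm (Fin n)) : Sym2 (Fin n) ≃ Sym2 (Fin n) where
  toFun := Sym2.map s
  invFun := Sym2.map s.symm
  left_inv e := by simp [Sym2.map_map]
  right_inv e := by simp [Sym2.map_map]

/-- The copies of the edge set `F` in the complete graph on `n` vertices. -/
def copies (F : Finset (Sym2 (Fin n))) : Finset (Finset (Sym2 (Fin n))) :=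
  univ.image fun s : Equiv.Perm (Fin n) => F.map (edgeAct s).toEmbedding

/-- The number of copies of `F` contained in `H`. -/
def copiesIn (H F : Finset (Sym2 (Fin n))) : ℕ := ((copies F).filter (· ⊆ H)).card

/-- All edges of the complete graph on `n` vertices. -/
def edges (n : ℕ) : Finset (Sym2 (Fin n)) := univ.filter fun e => ¬ e.IsDiag

open Classical in
/-- Probability that the random graph `G(n,p)` contains a copy of `H`. -/
noncomputable def prContain (H : Finset (Sym2 (Fin n))) (p : ℝ) : ℝ :=
  ∑ W ∈ (edges n).powerset, p ^ W.card * (1 - p) ^ (edges n \ W).card *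
    (if ∃ S ∈ copies H, S ⊆ W then (1:ℝ) else 0)

/-- The threshold of containing a copy of `H`. -/
noncomputable def pc (H : Finset (Sym2 (Fin n))) : ℝ :=
  sInf {p : ℝ | 0 ≤ p ∧ p ≤ 1 ∧ 1 / 2 ≤ prContain H p}

/-- The expectation threshold of `H`. -/
noncomputable def pE (H : Finset (Sym2 (Fin n))) : ℝ :=
  sInf {p : ℝ | 0 ≤ p ∧ p ≤ 1 ∧ ∀ F ⊆ H, 1 / 2 ≤ ((copies F).card : ℝ) * p ^ F.card}

/-- The fractional expectation threshold of `H`. -/
noncomputable def pTildeE (H : Finset (Sym2 (Fin n))) : ℝ :=
  sInf {p : ℝ | 0 ≤ p ∧ p ≤ 1 ∧ ∀ F ⊆ H,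
    (copiesIn H F : ℝ) / 2 ≤ ((copies F).card : ℝ) * p ^ F.card}

lemma copies_map (s : Equiv.Perm (Fin n)) (F S : Finset (Sym2 (Fin n))) :
    S.map (edgeAct s).toEmbedding ∈ copies F ↔ S ∈ copies F := by
  have hcomp : ∀ a b : Equiv.Perm (Fin n), ∀ T : Finset (Sym2 (Fin n)),
      (T.map (edgeAct a).toEmbedding).map (edgeAct b).toEmbedding
        = T.map (edgeAct (b * a)).toEmbedding := by
    intro a b T
    rw [map_map]
    congr 1
    ext e
    simp [edgeAct, Sym2.map_map]
  constructor
  · intro h
    obtain ⟨r, -, hr⟩ := mem_image.mp h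
    refine mem_image.mpr ⟨s⁻¹ * r, mem_univ _, ?_⟩
    rw [← hcomp r s⁻¹ F, hr, hcomp]
    have : edgeAct (s⁻¹ * s) = Equiv.refl (Sym2 (Fin n)) := by
      ext e; simp [edgeAct]
    rw [this]; simp
  · intro h
    obtain ⟨r, -, rfl⟩ := mem_image.mp h
    exact mem_image.mpr ⟨s * r, mem_univ _, (hcomp r s F).symm⟩

/-- At every admissible `p`, multiplying by `256 * log n` is admissible for the fractional
threshold. -/
lemma tilde_admissible (hn : 2 ≤ n) (H : Finset (Sym2 (Fin n))) (hH : H.Nonempty) {p : ℝ}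
    (hp0 : 0 ≤ p) (hp : ∀ F ⊆ H, 1 / 2 ≤ ((copies F).card : ℝ) * p ^ F.card) :
    ∀ F ⊆ H, (copiesIn H F : ℝ) / 2 ≤
      ((copies F).card : ℝ) * (min 1 (256 * Real.log n * p)) ^ F.card := by
  have hppos : 0 < p := by
    rcases hp0.eq_or_lt with h | h
    · have := hp H subset_rfl
      rw [← h, zero_pow hH.card_pos.ne'] at this
      norm_num at this
    · exact h
  intro F hF
  rcases le_total 1 (256 * Real.log n * p) with hbig | hsmall
  · rw [min_eq_left hbig, one_pow, mul_one]
    have : copiesIn H F ≤ (copies F).card := card_filter_le _ _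
    have h2 : (copiesIn H F : ℝ) ≤ ((copies F).card : ℝ) := by exact_mod_cast this
    linarith [Nat.cast_nonneg (α := ℝ) (copiesIn H F)]
  rw [min_eq_right hsmall]
  set K := Nat.log 2 n + 1 with hK
  set v : Finset (Sym2 (Fin n)) → ℝ := fun S => if S ∈ copies F then 1 else 0 with hv
  have hcard : H.card < 4 ^ K := by
    have h1 : H.card ≤ Fintype.card (Sym2 (Fin n)) := card_le_univ H
    rw [Sym2.card, Fintype.card_fin] at h1
    have h2 : n < 2 ^ K := Nat.lt_pow_succ_log_self one_lt_two n
    have h3 : (n + 1).choose 2 ≤ n * n := by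
      rw [Nat.choose_two_right, Nat.add_sub_cancel]
      have : (n + 1) * n ≤ n * n * 2 := by nlinarith
      omega
    have h4 : n * n < 2 ^ K * 2 ^ K := Nat.mul_self_lt_mul_self h2
    rw [← mul_pow] at h4
    norm_num at h4
    omega
  have hyp : ∀ U ⊆ H, U.Nonempty → 1 ≤ ((orb edgeAct U).card : ℝ) * (2 * p) ^ U.card := by
    intro U hU hne
    have h1 := hp U hU
    have h2 : (2:ℝ) ≤ 2 ^ U.card := by
      calc (2:ℝ) = 2 ^ 1 := (pow_one 2).symm
        _ ≤ _ := pow_le_pow_right₀ one_le_two hne.card_pos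
    have he : orb edgeAct U = copies U := rfl
    rw [he, mul_pow]
    nlinarith [pow_nonneg hp0 U.card, Nat.cast_nonneg (α := ℝ) (copies U).card]
  have hmain := below_le edgeAct (v := v)
    (fun s S => by
      simp only [hv, mv]
      exact if_congr (copies_map s F S) rfl rfl)
    (fun S => by simp only [hv]; split_ifs <;> norm_num)
    (by positivity : (0:ℝ) < 2 * p) H hcard hyp
  have hl : ∑ S ∈ H.powerset, v S = (copiesIn H F : ℝ) := by
    simp only [hv, sum_boole, copiesIn]
    congr 2
    ext S; simp [mem_filter, and_comm]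
  have hr : ∑ S, v S * ((K : ℝ) * (32 * (2 * p))) ^ S.card
      = ((copies F).card : ℝ) * ((K : ℝ) * (32 * (2 * p))) ^ F.card := by
    simp only [hv, ite_mul, one_mul, zero_mul, ← sum_filter, filter_mem_eq_inter, univ_inter]
    rw [sum_congr rfl (fun S hS => ?_), sum_const, nsmul_eq_mul]
    obtain ⟨r, -, rfl⟩ := mem_image.mp hS
    rw [card_map]
  rw [hl, hr] at hmain
  have hlog : (K : ℝ) ≤ 4 * Real.log n := by
    have h1 : ((2 ^ Nat.log 2 n : ℕ) : ℝ) ≤ n := by
      exact_mod_cast Nat.pow_log_le_self 2 (by omega)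
    have h2 := Real.log_le_log (by positivity) h1
    push_cast at h2
    rw [Real.log_pow] at h2
    have h3 : Real.log 2 ≤ Real.log n := Real.log_le_log two_pos (by exact_mod_cast hn)
    have h4 := Real.log_two_gt_d9
    rw [hK]; push_cast
    nlinarith [Nat.cast_nonneg (α := ℝ) (Nat.log 2 n)]
  have hbound : ((K : ℝ) * (32 * (2 * p))) ^ F.card ≤ (256 * Real.log n * p) ^ F.card := by
    refine pow_le_pow_left₀ (by positivity) ?_ _
    nlinarith
  have := mul_le_mul_of_nonneg_left hbound (Nat.cast_nonneg (α := ℝ) (copies F).card)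
  linarith [Nat.cast_nonneg (α := ℝ) (copiesIn H F)]

lemma copies_mem_self (F : Finset (Sym2 (Fin n))) : F ∈ copies F :=
  mem_image.mpr ⟨1, mem_univ _, by ext e; simp [edgeAct, Equiv.Perm.one_def]⟩

lemma map_copies (H : Finset (Sym2 (Fin n))) (s : Equiv.Perm (Fin n)) :
    (copies H).map (mapEmbedding (edgeAct s).toEmbedding).toEmbedding = copies H := by
  refine eq_of_subset_of_card_le (fun T hT => ?_) (by rw [card_map])
  obtain ⟨S, hS, rfl⟩ := mem_map.mp hT
  exact (copies_map s H S).mpr hS

lemma above_map (H T : Finset (Sym2 (Fin n))) (s : Equiv.Perm (Fin n)) :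
    ((copies H).filter (T.map (edgeAct s).toEmbedding ⊆ ·)).card
      = ((copies H).filter (T ⊆ ·)).card := by
  conv_lhs => rw [← map_copies H s, filter_map, card_map]
  congr 1
  refine filter_congr fun S _ => ?_
  simp [mapEmbedding_apply, map_subset_map]

lemma copiesIn_map (H F : Finset (Sym2 (Fin n))) (s : Equiv.Perm (Fin n)) :
    copiesIn (H.map (edgeAct s).toEmbedding) F = copiesIn H F := by
  rw [copiesIn, copiesIn]
  conv_lhs => rw [← map_copies F s, filter_map, card_map]
  congr 1
  refine filter_congr fun S _ => ?_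
  simp [mapEmbedding_apply, map_subset_map]

/-- Double counting of pairs of copies. -/
lemma double_count (H F : Finset (Sym2 (Fin n))) :
    ((copies F).card : ℝ) * ((copies H).filter (F ⊆ ·)).card
      = ((copies H).card : ℝ) * copiesIn H F := by
  have h := sum_card_bipartiteAbove_eq_sum_card_bipartiteBelow
    (fun T S : Finset (Sym2 (Fin n)) => T ⊆ S) (s := copies F) (t := copies H)
  simp only [bipartiteAbove, bipartiteBelow] at h
  have hA : ∀ T ∈ copies F, ((copies H).filter (T ⊆ ·)).card
      = ((copies H).filter (F ⊆ ·)).card := fun T hT => by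
    obtain ⟨r, -, rfl⟩ := mem_image.mp hT
    exact above_map H F r
  have hB : ∀ S ∈ copies H, ((copies F).filter (· ⊆ S)).card = copiesIn H F := fun S hS => by
    obtain ⟨r, -, rfl⟩ := mem_image.mp hS
    exact copiesIn_map H F r
  rw [sum_congr rfl hA, sum_congr rfl hB, sum_const, sum_const, smul_eq_mul, smul_eq_mul] at h
  exact_mod_cast h

lemma prContain_bound (hn : 2 ≤ n) (H : Finset (Sym2 (Fin n))) (hloop : ∀ e ∈ H, ¬ e.IsDiag)
    (hH : H.Nonempty) {p : ℝ} (hp0 : 0 ≤ p)
    (hp : ∀ F ⊆ H, 1 / 2 ≤ ((copies F).card : ℝ) * p ^ F.card) :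
    1 / 2 ≤ prContain H (min 1 (196608 * Real.log n ^ 2 * p)) := by
  have hlog : 0 < Real.log n := Real.log_pos (by exact_mod_cast (show 1 < n by omega))
  have hppos : 0 < p := by
    rcases hp0.eq_or_lt with h | h
    · have := hp H subset_rfl
      rw [← h, zero_pow hH.card_pos.ne'] at this
      norm_num at this
    · exact h
  set c : ℝ := 256 * Real.log n * p with hc
  have hcpos : 0 < c := by positivity
  set N : ℝ := ((copies H).card : ℝ) with hN
  have hNpos : 0 < N := Nat.cast_pos.mpr (card_pos.mpr ⟨H, copies_mem_self H⟩)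
  set mu : Finset (Sym2 (Fin n)) → ℝ := fun S => if S ∈ copies H then N⁻¹ else 0 with hmu
  have hsupp : supp (edges n) mu = copies H := by
    ext S
    simp only [supp, mem_filter, mem_powerset, hmu]
    constructor
    · rintro ⟨-, h⟩
      by_contra h'
      exact h (if_neg h')
    · intro h
      refine ⟨fun e he => mem_filter.mpr ⟨mem_univ _, ?_⟩, by simp [h, hNpos.ne']⟩
      obtain ⟨r, -, rfl⟩ := mem_image.mp h
      obtain ⟨d, hd, rfl⟩ := mem_map.mp he
      have := hloop d hd
      simp [edgeAct, Sym2.isDiag_map r.injective, this]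
  have hsum : ∀ P : Finset (Sym2 (Fin n)) → Prop, ∀ [DecidablePred P],
      ∑ S ∈ (copies H).filter P, mu S = ((copies H).filter P).card / N := by
    intro P _
    rw [sum_congr rfl (fun S hS => if_pos (mem_filter.mp hS).1), sum_const, nsmul_eq_mul,
      div_eq_mul_inv]
  have hspread : Spread (edges n) mu (2 * c) H.card := by
    refine ⟨fun S => ?_, fun S hS => ?_, fun V => ?_⟩
    · simp only [hmu]; split_ifs <;> positivity
    · rw [hsupp] at hS
      obtain ⟨r, -, rfl⟩ := mem_image.mp hS
      rw [card_map]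
    · rw [hsupp, hsum, div_le_iff₀ hNpos]
      rcases V.eq_empty_or_nonempty with rfl | hV
      · simp [hN]
      rcases ((copies H).filter (V ⊆ ·)).eq_empty_or_nonempty with he | ⟨S0, hS0⟩
      · rw [he]; simp only [card_empty, Nat.cast_zero]; positivity
      obtain ⟨hS, hVS⟩ := mem_filter.mp hS0
      obtain ⟨r, -, rfl⟩ := mem_image.mp hS
      set F := V.map (edgeAct r).symm.toEmbedding with hF
      have hFV : F.map (edgeAct r).toEmbedding = V := by ext e; simp [hF]
      have hFH : F ⊆ H := by
        intro e he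
        rw [← hFV] at hVS
        exact (mem_map' _).mp (hVS (mem_map_of_mem _ he))
      have hcard : F.card = V.card := by rw [hF, card_map]
      have h1 := tilde_admissible hn H hH hp0 hp F hFH
      have h2 : (min 1 c) ^ F.card ≤ c ^ F.card :=
        pow_le_pow_left₀ (le_min zero_le_one hcpos.le) (min_le_right _ _) _
      have h3 : (2:ℝ) ≤ 2 ^ V.card := by
        calc (2:ℝ) = 2 ^ 1 := (pow_one 2).symm
          _ ≤ _ := pow_le_pow_right₀ one_le_two hV.card_pos
      have h4 := double_count H F
      have h5 : (0:ℝ) < (copies F).card := Nat.cast_pos.mpr (card_pos.mpr ⟨F, copies_mem_self F⟩)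
      conv_lhs => rw [← hFV, above_map]
      refine le_of_mul_le_mul_left ?_ h5
      rw [h4, mul_pow, ← hcard]
      have h6 : (copiesIn H F : ℝ) ≤ (copies F).card * (2 * c ^ F.card) := by
        nlinarith [mul_le_mul_of_nonneg_left h2 h5.le]
      have h7 : 2 * c ^ F.card ≤ 2 ^ F.card * c ^ F.card :=
        mul_le_mul_of_nonneg_right (hcard ▸ h3) (by positivity)
      calc N * copiesIn H F ≤ N * ((copies F).card * (2 ^ F.card * c ^ F.card)) :=
            mul_le_mul_of_nonneg_left
              (h6.trans (mul_le_mul_of_nonneg_left h7 h5.le)) hNpos.le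
        _ = _ := by ring
  set k := Nat.log 2 H.card + 1 with hk
  have hmain := spread_hit (by positivity : (0:ℝ) < 2 * c) k (edges n) mu H.card
    (Nat.lt_pow_succ_log_self one_lt_two _) hspread
  have htot : ∑ S ∈ supp (edges n) mu, mu S = 1 := by
    rw [hsupp, ← filter_true_of_mem (s := copies H) (fun _ _ => trivial), hsum]
    rw [hN]; simp [(nonempty_iff_ne_empty.mp ⟨H, copies_mem_self H⟩)]
  have hk6 : (k : ℝ) ≤ 6 * Real.log n := by
    have hle : H.card ≤ n * n := by
      have h1 : H.card ≤ Fintype.card (Sym2 (Fin n)) := card_le_univ H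
      rw [Sym2.card, Fintype.card_fin] at h1
      have h3 : (n + 1).choose 2 ≤ n * n := by
        rw [Nat.choose_two_right, Nat.add_sub_cancel]
        have : (n + 1) * n ≤ n * n * 2 := by nlinarith
        omega
      omega
    have h1 : ((2 ^ Nat.log 2 H.card : ℕ) : ℝ) ≤ ((n * n : ℕ) : ℝ) := by
      exact_mod_cast (Nat.pow_log_le_self 2 hH.card_pos.ne').trans hle
    have h2 := Real.log_le_log (by positivity) h1
    push_cast at h2
    rw [Real.log_pow, Real.log_mul (by positivity) (by positivity)] at h2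
    have h3 : Real.log 2 ≤ Real.log n := Real.log_le_log two_pos (by exact_mod_cast hn)
    have h4 := Real.log_two_gt_d9
    rw [hk]; push_cast
    nlinarith [Nat.cast_nonneg (α := ℝ) (Nat.log 2 H.card)]
  have hq : 64 * (2 * c) * k ≤ 196608 * Real.log n ^ 2 * p := by
    rw [hc]
    have : 0 ≤ Real.log n * p := by positivity
    nlinarith
  have hmono := hitProb_mono (edges n) mu
    (le_min zero_le_one (by positivity : 0 ≤ 64 * (2 * c) * (k:ℝ)))
    (min_le_min_left 1 hq) (min_le_left _ _)
  have heq : hitProb (edges n) mu (min 1 (196608 * Real.log n ^ 2 * p))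
      = prContain H (min 1 (196608 * Real.log n ^ 2 * p)) := by
    refine sum_congr rfl fun W _ => ?_
    simp only [Hit, hsupp, bw]
  rw [htot] at hmain
  have : (0:ℝ) ≤ (1/4) ^ H.card := by positivity
  linarith

end Vale.Agent.P064
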