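import Vale.Agent.P064.Levels
import Vale.Agent.P064.Graph

/-!
# P064: the chain of heaviest subgraphs, and the threshold bound

`core` is the maximiser of `#{copies of A containing U} / kap ^ |U|` over `U ⊆ A`. If every
subgraph has expected count at least one at density `q` and `kap = 512 * q`, it has at most an
eighth of the edges of `A`, and a random copy of `A` given a copy of its core is `kap`-spread
outside it.
-/

namespace Vale.Agent.P064

open Finset

section Rounds

variable {X : Type} [DecidableEq X] {E : Finset X} {ch : ℕ → Finset X → Finset (Finset X)}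
  {n : ℕ → ℕ} {lam : ℝ} {node : ℕ → Finset X → Prop}

/-- The rate of the union of `N` independent samples of rate `p`. -/
def rateOf (p : ℝ) : ℕ → ℝ
  | 0 => 0
  | N + 1 => 1 - (1 - p) * (1 - rateOf p N)

lemma rateOf_bounds {p : ℝ} (h0 : 0 ≤ p) (h1 : p ≤ 1) :
    ∀ N : ℕ, 0 ≤ rateOf p N ∧ rateOf p N ≤ 1 ∧ rateOf p N ≤ N * p
  | 0 => by simp [rateOf]
  | N + 1 => by
    obtain ⟨a, b, c⟩ := rateOf_bounds h0 h1 N
    simp only [rateOf]
    push_cast
    have := mul_nonneg (show (0:ℝ) ≤ 1 - p by linarith) (show (0:ℝ) ≤ 1 - rateOf p N by linarith)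
    have := mul_nonneg h0 a
    refine ⟨by nlinarith, by linarith, by nlinarith⟩

open Classical in
lemma unfinished_le (h : Chain E ch n lam node) {p : ℝ} (hp : 0 < p) (hp1 : p ≤ 1)
    (hlp : lam / p ≤ (1 / 64) ^ 14) (J : ℕ) {I : ℕ} :
    ∀ (N m i : ℕ) (B W : Finset X), i + m = I → Good ch n lam i J B W →
    ∑ V ∈ E.powerset, bw E (rateOf p N) V *
      (if Good ch n lam I J B (W ∪ V) then (0:ℝ) else 1) ≤ 2 ^ m * (3 / 4) ^ N := by
  intro N
  induction N with
  | zero =>
    intro m i B W _ _
    have h0 := bw_nonneg E (le_refl (0:ℝ)) zero_le_one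
    simp only [rateOf, pow_zero, mul_one]
    calc _ ≤ ∑ V ∈ E.powerset, bw E 0 V * 1 := by
          refine sum_le_sum fun V _ => mul_le_mul_of_nonneg_left ?_ (h0 V)
          split_ifs <;> norm_num
      _ = 1 := by simp only [mul_one, bw_sum]
      _ ≤ _ := one_le_pow₀ one_le_two
  | succ N ih =>
    intro m i B W him hg
    obtain ⟨r0, r1, -⟩ := rateOf_bounds hp.le hp1 N
    cases m with
    | zero =>
      have hi : i = I := by omega
      subst hi
      refine le_trans (le_of_eq (sum_eq_zero fun V _ => ?_)) (by positivity)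
      rw [if_pos (good_mono h.lam_nonneg subset_union_left hg), mul_zero]
    | succ m =>
      simp only [rateOf]
      rw [← bw_union E p (rateOf p N)]
      set f : Finset X → ℝ := fun R => if Good ch n lam (i + 1) J B (W ∪ R) then 0 else 1
      have hb : ∀ R, 0 ≤ bw E p R := bw_nonneg E hp.le hp1
      have hf : ∑ R ∈ E.powerset, bw E p R * f R ≤ 1 / 2 :=
        (good_step h hp hp1 hlp J B W hg).trans (lossAt_le_half i J)
      have hstep : ∀ R ∈ E.powerset, ∑ V ∈ E.powerset, bw E p R * bw E (rateOf p N) V *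
          (if Good ch n lam I J B (W ∪ (R ∪ V)) then (0:ℝ) else 1)
          ≤ bw E p R * ((1 + f R) * (2 ^ m * (3 / 4) ^ N)) := by
        intro R _
        simp only [mul_assoc, ← mul_sum, ← union_assoc]
        refine mul_le_mul_of_nonneg_left ?_ (hb R)
        by_cases hq : Good ch n lam (i + 1) J B (W ∪ R)
        · refine (ih m (i + 1) B (W ∪ R) (by omega) hq).trans (le_of_eq ?_)
          simp [f, hq]
        · refine (ih (m + 1) i B (W ∪ R) him
            (good_mono h.lam_nonneg subset_union_left hg)).trans (le_of_eq ?_)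
          simp only [f, if_neg hq]; ring
      refine (sum_le_sum hstep).trans ?_
      simp only [← mul_assoc, ← sum_mul, mul_add, mul_one, sum_add_distrib, bw_sum]
      rw [pow_succ, pow_succ]
      nlinarith [mul_nonneg (pow_nonneg (zero_le_two (α := ℝ)) m)
        (pow_nonneg (show (0:ℝ) ≤ 3 / 4 by norm_num) N)]

lemma good_finished (h : Chain E ch n lam node) {I : ℕ} (hI : ∀ j, n j < 2 ^ I) :
    ∀ (j : ℕ) (B W : Finset X), node j B → B ⊆ W → Good ch n lam I j B W →
      ∃ L, node 0 L ∧ L ⊆ W
  | 0, B, W, hB, hs, _ => ⟨B, hB, hs⟩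
  | j + 1, B, W, hB, hs, hg => by
    simp only [Good] at hg
    rw [if_pos (Nat.div_eq_of_lt (hI j))] at hg
    obtain ⟨C, hC, hCB, hr⟩ := hg
    refine good_finished h hI j C W (h.child j B C hB hC) (fun x hx => ?_) hr
    by_cases hxB : x ∈ B
    · exact hs hxB
    · exact hCB (mem_sdiff.mpr ⟨hx, hxB⟩)

end Rounds

variable {n : ℕ}

/-- Copies of `A` containing `U`, weighted against `kap`. -/
noncomputable def score (kap : ℝ) (A U : Finset (Sym2 (Fin n))) : ℝ :=
  (((copies A).filter (U ⊆ ·)).card : ℝ) / kap ^ U.card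

/-- A subgraph of `A` of largest score. -/
noncomputable def core (kap : ℝ) (A : Finset (Sym2 (Fin n))) : Finset (Sym2 (Fin n)) :=
  (exists_max_image A.powerset (score kap A) ⟨∅, empty_mem_powerset A⟩).choose

/-- Iterated cores. -/
noncomputable def coreIter (kap : ℝ) (H : Finset (Sym2 (Fin n))) : ℕ → Finset (Sym2 (Fin n))
  | 0 => H
  | j + 1 => core kap (coreIter kap H j)

lemma core_subset (kap : ℝ) (A : Finset (Sym2 (Fin n))) : core kap A ⊆ A :=
  mem_powerset.mp (exists_max_image A.powerset (score kap A) ⟨∅, empty_mem_powerset A⟩).choose_spec.1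

lemma core_max (kap : ℝ) (A U : Finset (Sym2 (Fin n))) (hU : U ⊆ A) :
    score kap A U ≤ score kap A (core kap A) :=
  (exists_max_image A.powerset (score kap A) ⟨∅, empty_mem_powerset A⟩).choose_spec.2 U
    (mem_powerset.mpr hU)

lemma coreIter_subset (kap : ℝ) (H : Finset (Sym2 (Fin n))) : ∀ j, coreIter kap H j ⊆ H
  | 0 => subset_rfl
  | j + 1 => (core_subset kap _).trans (coreIter_subset kap H j)

lemma core_max_any {kap : ℝ} (hk : 0 < kap) (A V : Finset (Sym2 (Fin n))) :
    score kap A V ≤ score kap A (core kap A) := by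
  rcases ((copies A).filter (V ⊆ ·)).eq_empty_or_nonempty with he | ⟨S, hS⟩
  · refine le_trans (le_of_eq ?_) (div_nonneg (Nat.cast_nonneg _) (pow_nonneg hk.le _))
    simp [score, he]
  · obtain ⟨hS, hVS⟩ := mem_filter.mp hS
    obtain ⟨r, -, rfl⟩ := mem_image.mp hS
    set F := V.map (edgeAct r).symm.toEmbedding with hF
    have hFV : F.map (edgeAct r).toEmbedding = V := by ext e; simp [hF]
    have hFA : F ⊆ A := by
      intro e he
      rw [← hFV] at hVS
      exact (mem_map' _).mp (hVS (mem_map_of_mem _ he))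
    refine le_trans (le_of_eq ?_) (core_max kap A F hFA)
    rw [score, score, ← hFV, above_map, card_map]

lemma core_card {q : ℝ} (hq : 0 < q) (A : Finset (Sym2 (Fin n)))
    (hA : ∀ U ⊆ A, U.Nonempty → 1 ≤ ((copies U).card : ℝ) * q ^ U.card) :
    8 * (core (512 * q) A).card ≤ A.card := by
  set U := core (512 * q) A
  by_contra hlt
  rw [not_le] at hlt
  have hne : U.Nonempty := card_pos.mp (by omega)
  have h1 := core_max (512 * q) A ∅ (empty_subset _)
  have hN : (0:ℝ) < (copies A).card := Nat.cast_pos.mpr (card_pos.mpr ⟨A, copies_mem_self A⟩)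
  simp only [score, card_empty, pow_zero, div_one, empty_subset, filter_true] at h1
  rw [le_div_iff₀ (by positivity)] at h1
  have hin : (copiesIn A U : ℝ) ≤ 2 ^ A.card := by
    have : copiesIn A U ≤ 2 ^ A.card := by
      rw [copiesIn, ← card_powerset]
      exact card_le_card fun S hS => mem_powerset.mpr (mem_filter.mp hS).2
    exact_mod_cast this
  have hdc := double_count A U
  have hU := hA U (core_subset _ _) hne
  have h2 : ((512:ℝ) * q) ^ U.card * (copies U).card ≤ 2 ^ A.card := by
    refine le_trans (le_of_mul_le_mul_left ?_ hN) hin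
    rw [← hdc]
    calc ((copies A).card : ℝ) * ((512 * q) ^ U.card * (copies U).card)
        = ((copies A).card * (512 * q) ^ U.card) * (copies U).card := by ring
      _ ≤ _ := (mul_le_mul_of_nonneg_right h1 (Nat.cast_nonneg _)).trans (le_of_eq (by ring))
  have h3 : (512:ℝ) ^ U.card ≤ 2 ^ A.card := by
    refine le_trans ?_ h2
    rw [mul_pow, mul_assoc]
    exact le_mul_of_one_le_right (by positivity) (by linarith)
  have h4 : (2:ℝ) ^ A.card < 512 ^ U.card := by
    calc (2:ℝ) ^ A.card < 2 ^ (9 * U.card) := pow_lt_pow_right₀ one_lt_two (by omega)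
      _ = _ := by rw [pow_mul]; norm_num
  linarith

/-- The children of a node. -/
noncomputable def kids (kap : ℝ) (H : Finset (Sym2 (Fin n))) (j : ℕ)
    (B : Finset (Sym2 (Fin n))) : Finset (Finset (Sym2 (Fin n))) :=
  (copies (coreIter kap H j)).filter (B ⊆ ·)

lemma copies_subset_edges {H A : Finset (Sym2 (Fin n))} (hloop : ∀ e ∈ H, ¬ e.IsDiag)
    (hA : A ⊆ H) {S : Finset (Sym2 (Fin n))} (hS : S ∈ copies A) : S ⊆ edges n := by
  intro e he
  refine mem_filter.mpr ⟨mem_univ _, ?_⟩
  obtain ⟨r, -, rfl⟩ := mem_image.mp hS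
  obtain ⟨d, hd, rfl⟩ := mem_map.mp he
  have := hloop d (hA hd)
  simp [edgeAct, Sym2.isDiag_map r.injective, this]

lemma chain_cores {H : Finset (Sym2 (Fin n))} (hloop : ∀ e ∈ H, ¬ e.IsDiag) {q : ℝ} (hq : 0 < q)
    (hyp : ∀ U ⊆ H, U.Nonempty → 1 ≤ ((copies U).card : ℝ) * q ^ U.card) :
    Chain (edges n) (kids (512 * q) H) (fun j => (coreIter (512 * q) H j).card) (512 * q)
      (fun j B => B ∈ copies (coreIter (512 * q) H j)) := by
  have hcard : ∀ j, ∀ C ∈ copies (coreIter (512 * q) H j),
      C.card = (coreIter (512 * q) H j).card := by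
    intro j C hC
    obtain ⟨r, -, rfl⟩ := mem_image.mp hC
    rw [card_map]
  refine ⟨by positivity, fun j => core_card hq _ fun U hU =>
      hyp U (hU.trans (coreIter_subset _ H j)), fun j B C hC =>
      copies_subset_edges hloop (coreIter_subset _ H j) (mem_filter.mp hC).1, fun j B C hC =>
      (card_le_card sdiff_subset).trans (hcard j C (mem_filter.mp hC).1).le,
    fun j B C _ hC => (mem_filter.mp hC).1, fun j B hB => ?_, fun j B hB U => ?_⟩
  · obtain ⟨r, -, rfl⟩ := mem_image.mp hB
    exact ⟨(coreIter (512 * q) H j).map (edgeAct r).toEmbedding,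
      mem_filter.mpr ⟨mem_image.mpr ⟨r, mem_univ _, rfl⟩, map_subset_map.mpr (core_subset _ _)⟩⟩
  · set kap := 512 * q
    have hk : 0 < kap := by positivity
    set A := coreIter kap H j
    obtain ⟨r, -, hr⟩ := mem_image.mp hB
    have hBscore : score kap A B = score kap A (core kap A) := by
      rw [← hr, score, score]
      change _ = (((copies A).filter (core kap A ⊆ ·)).card : ℝ) / _
      rw [above_map, card_map]
      rfl
    by_cases hd : Disjoint U B
    · have hsub : ((kids kap H j B).filter fun C => U ⊆ C \ B).card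
          ≤ ((copies A).filter (B ∪ U ⊆ ·)).card := by
        refine card_le_card fun C hC => ?_
        simp only [kids, mem_filter] at hC ⊢
        exact ⟨hC.1.1, union_subset hC.1.2 (hC.2.trans sdiff_subset)⟩
      have hsub' : (((kids kap H j B).filter fun C => U ⊆ C \ B).card : ℝ)
          ≤ ((copies A).filter (B ∪ U ⊆ ·)).card := by exact_mod_cast hsub
      refine hsub'.trans ?_
      have h1 := core_max_any hk A (B ∪ U)
      rw [← hBscore, score, score, card_union_of_disjoint hd.symm,
        div_le_div_iff₀ (by positivity) (by positivity), pow_add] at h1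
      refine le_of_mul_le_mul_right (le_trans h1 (le_of_eq ?_)) (pow_pos hk B.card)
      change _ = kap ^ U.card * (((copies A).filter (B ⊆ ·)).card : ℝ) * _
      ring
    · have : ((kids kap H j B).filter fun C => U ⊆ C \ B) = ∅ :=
        filter_eq_empty_iff.mpr fun C _ hU =>
          hd (disjoint_of_subset_left hU sdiff_disjoint)
      rw [this, card_empty, Nat.cast_zero]
      positivity

/-- The random graph contains `H` with probability at least `1/2` at rate `C * p * log n`. -/
theorem prContain_single_log (hn : 2 ≤ n) (H : Finset (Sym2 (Fin n)))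
    (hloop : ∀ e ∈ H, ¬ e.IsDiag) (hH : H.Nonempty) {p : ℝ} (hp0 : 0 ≤ p)
    (hp : ∀ F ⊆ H, 1 / 2 ≤ ((copies F).card : ℝ) * p ^ F.card) :
    1 / 2 ≤ prContain H (min 1 (1024 * 64 ^ 14 * 26 * Real.log n * p)) := by
  classical
  have hlog : 0 < Real.log n := Real.log_pos (by exact_mod_cast (show 1 < n by omega))
  have hppos : 0 < p := by
    rcases hp0.eq_or_lt with h | h
    · have := hp H subset_rfl
      rw [← h, zero_pow hH.card_pos.ne'] at this
      norm_num at this
    · exact h
  set q := 2 * p with hqdef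
  have hq : 0 < q := by positivity
  have hyp : ∀ U ⊆ H, U.Nonempty → 1 ≤ ((copies U).card : ℝ) * q ^ U.card := by
    intro U hU hne
    have h1 := hp U hU
    have h2 : (2:ℝ) ≤ 2 ^ U.card := by
      calc (2:ℝ) = 2 ^ 1 := (pow_one 2).symm
        _ ≤ _ := pow_le_pow_right₀ one_le_two hne.card_pos
    rw [hqdef, mul_pow]
    nlinarith [pow_nonneg hp0 U.card, Nat.cast_nonneg (α := ℝ) (copies U).card]
  set tgt := min 1 (1024 * 64 ^ 14 * 26 * Real.log n * p) with htgt
  set mu : Finset (Sym2 (Fin n)) → ℝ := fun S => if S ∈ copies H then 1 else 0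
  have hsupp : supp (edges n) mu = copies H := by
    ext S
    simp only [supp, mem_filter, mem_powerset, mu, ne_eq, ite_eq_right_iff, one_ne_zero,
      imp_false, not_not]
    exact ⟨fun h => h.2, fun h => ⟨copies_subset_edges hloop subset_rfl h, h⟩⟩
  have heq : ∀ t, hitProb (edges n) mu t = prContain H t := fun t => by
    refine sum_congr rfl fun W _ => ?_
    simp only [Hit, hsupp, bw]
  rcases le_total 1 (1024 * 64 ^ 14 * 26 * Real.log n * p) with hbig | hsmall
  · rw [htgt, min_eq_left hbig, ← heq,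
      hitProb_one (by rw [hsupp]; exact ⟨H, copies_mem_self H⟩)]
    norm_num
  set N := 3 * (Nat.log 2 H.card + 1) + 5 with hN
  set rr : ℝ := 64 ^ 14 * (512 * q) with hrr
  have hrr0 : 0 < rr := by positivity
  have hk6 : ((Nat.log 2 H.card + 1 : ℕ) : ℝ) ≤ 6 * Real.log n := by
    have hle : H.card ≤ n * n := by
      have h1 : H.card ≤ Fintype.card (Sym2 (Fin n)) := card_le_univ H
      rw [Sym2.card, Fintype.card_fin] at h1
      have h3 : (n + 1).choose 2 ≤ n * n := by
        rw [Nat.choose_two_right, Nat.add_sub_cancel]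
        have : (n + 1) * n ≤ n * n * 2 := by nlinarith
        omega
      omega
    have h1 : ((2 ^ Nat.log 2 H.card : ℕ) : ℝ) ≤ ((n * n : ℕ) : ℝ) := by
      exact_mod_cast (Nat.pow_log_le_self 2 hH.card_pos.ne').trans hle
    have h2 := Real.log_le_log (by positivity) h1
    push_cast at h2
    rw [Real.log_pow, Real.log_mul (by positivity) (by positivity)] at h2
    have h3 : Real.log 2 ≤ Real.log n := Real.log_le_log two_pos (by exact_mod_cast hn)
    have h4 := Real.log_two_gt_d9
    push_cast
    nlinarith [Nat.cast_nonneg (α := ℝ) (Nat.log 2 H.card)]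
  have hNlog : (N : ℝ) ≤ 26 * Real.log n := by
    have h3 : Real.log 2 ≤ Real.log n := Real.log_le_log two_pos (by exact_mod_cast hn)
    have h4 := Real.log_two_gt_d9
    rw [hN]; push_cast at hk6 ⊢
    nlinarith
  have hNr : (N : ℝ) * rr ≤ 1024 * 64 ^ 14 * 26 * Real.log n * p := by
    refine (mul_le_mul_of_nonneg_right hNlog hrr0.le).trans (le_of_eq ?_)
    rw [hrr, hqdef]; ring
  have hrr1 : rr ≤ 1 := by
    have : (1:ℝ) ≤ N := by exact_mod_cast (show 1 ≤ N by omega)
    nlinarith
  obtain ⟨t0, t1, t2⟩ := rateOf_bounds hrr0.le hrr1 N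
  have hchain := chain_cores hloop hq hyp
  set kap := 512 * q
  set J := H.card + 1
  have hshrink : ∀ j, 8 ^ j * (coreIter kap H j).card ≤ H.card := by
    intro j
    induction j with
    | zero => simp [coreIter]
    | succ j ih =>
      refine le_trans ?_ ih
      rw [pow_succ, mul_assoc]
      exact Nat.mul_le_mul_left _ (hchain.grow j)
  have hroot : coreIter kap H J = ∅ := by
    rw [← card_eq_zero]
    by_contra h0
    have h1 := hshrink J
    have h2 : 8 ^ J ≤ 8 ^ J * (coreIter kap H J).card :=
      Nat.le_mul_of_pos_right _ (Nat.pos_of_ne_zero h0)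
    have h3 : J < 8 ^ J := Nat.lt_pow_self (by norm_num)
    omega
  set I := Nat.log 2 H.card + 1 with hI
  have hfin : ∀ j, (coreIter kap H j).card < 2 ^ I := fun j =>
    lt_of_le_of_lt (card_le_card (coreIter_subset kap H j))
      (Nat.lt_pow_succ_log_self one_lt_two _)
  have hnode : (∅ : Finset (Sym2 (Fin n))) ∈ copies (coreIter kap H J) := by
    rw [hroot]; exact copies_mem_self ∅
  have hlp : kap / rr ≤ (1 / 64) ^ 14 := by
    rw [div_le_iff₀ hrr0, hrr, one_div_pow, ← mul_assoc, one_div_mul_cancel (by positivity),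
      one_mul]
  have hrun := unfinished_le hchain hrr0 hrr1 hlp J N I 0 ∅ ∅ (Nat.zero_add I)
    (good_zero hchain J ∅ hnode)
  have hsmallN : (2:ℝ) ^ I * (3 / 4) ^ N ≤ 1 / 2 := by
    have e : (2:ℝ) ^ I * (3 / 4) ^ N = (2 * (3 / 4) ^ 3) ^ I * (3 / 4) ^ 5 := by
      rw [hN, mul_pow, ← pow_mul, pow_add (3 / 4 : ℝ)]; ring
    rw [e]
    refine le_trans (mul_le_mul_of_nonneg_right (pow_le_one₀ (by positivity) (by norm_num))
      (by positivity)) (by norm_num)
  have hhit : 1 / 2 ≤ prContain H (rateOf rr N) := by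
    have hsum : ∑ V ∈ (edges n).powerset, bw (edges n) (rateOf rr N) V = 1 := bw_sum _ _
    have hcmp : ∑ V ∈ (edges n).powerset, bw (edges n) (rateOf rr N) V *
        (1 - (if ∃ S ∈ copies H, S ⊆ V then (1:ℝ) else 0)) ≤ 1 / 2 := by
      refine le_trans (sum_le_sum fun V _ => mul_le_mul_of_nonneg_left ?_
        (bw_nonneg _ t0 t1 V)) (hrun.trans hsmallN)
      rw [empty_union]
      by_cases hg : Good (kids kap H) (fun j => (coreIter kap H j).card) kap I J ∅ V
      · obtain ⟨L, hL, hLV⟩ := good_finished hchain hfin J ∅ V hnode (empty_subset _) hg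
        rw [if_pos ⟨L, hL, hLV⟩, if_pos hg]; norm_num
      · rw [if_neg hg]; split_ifs <;> norm_num
    simp only [mul_sub, mul_one, sum_sub_distrib, hsum] at hcmp
    have : prContain H (rateOf rr N) = ∑ V ∈ (edges n).powerset,
        bw (edges n) (rateOf rr N) V * (if ∃ S ∈ copies H, S ⊆ V then (1:ℝ) else 0) := by
      refine sum_congr rfl fun V _ => ?_
      simp only [bw]
    linarith
  refine hhit.trans ?_
  rw [← heq, ← heq]
  exact hitProb_mono (edges n) mu t0 (le_min t1 (t2.trans hNr)) (min_le_left _ _)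

end Vale.Agent.P064
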