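import Vale.Agent.P064.Posterior

/-!
# P064: simultaneous rounds on a chain of spread kernels

Level `0` holds the leaves. A node `B` at level `j + 1` has children `ch j B`, and the new part
`C \ B` of a child has at most `n j` elements; `8 * n (j + 1) ≤ n j`. In round `i` the residual
budget at level `j` is `n j / 2 ^ i`. All levels advance in the same round.
-/

namespace Vale.Agent.P064

open Finset

variable {X : Type} [DecidableEq X]

/-- The state after `i` successful rounds at the node `B` of level `j`, given the sample `W`. -/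
def Good (ch : ℕ → Finset X → Finset (Finset X)) (n : ℕ → ℕ) (lam : ℝ) (i : ℕ) :
    ℕ → Finset X → Finset X → Prop
  | 0, _, _ => True
  | j + 1, B, W =>
    if n j / 2 ^ i = 0 then ∃ C ∈ ch j B, C \ B ⊆ W ∧ Good ch n lam i j C W
    else ∃ nu : Finset X → ℝ, (∀ C, 0 ≤ nu C) ∧ ∑ C ∈ ch j B, nu C = 1 ∧
      (∀ C ∈ ch j B, nu C ≠ 0 →
        ((C \ B) \ W).card ≤ n j / 2 ^ i ∧ Good ch n lam i j C W) ∧
      ∀ U : Finset X, ∑ C ∈ ch j B with U ⊆ (C \ B) \ W, nu C
        ≤ (1 + 1 / ((n j / 2 ^ i : ℕ) : ℝ)) * lam ^ U.card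

/-- The failure bound of one round at level `j`. -/
noncomputable def lossAt (n : ℕ → ℕ) (i : ℕ) : ℕ → ℝ
  | 0 => 0
  | j + 1 => if n j / 2 ^ i = 0 then lossAt n i j else (1 / 64) ^ (n j / 2 ^ i)

/-- A chain of spread kernels. -/
structure Chain (E : Finset X) (ch : ℕ → Finset X → Finset (Finset X)) (n : ℕ → ℕ) (lam : ℝ)
    (node : ℕ → Finset X → Prop) : Prop where
  lam_nonneg : 0 ≤ lam
  grow : ∀ j, 8 * n (j + 1) ≤ n j
  sub : ∀ j B C, C ∈ ch j B → C ⊆ E
  size : ∀ j B C, C ∈ ch j B → (C \ B).card ≤ n j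
  child : ∀ j B C, node (j + 1) B → C ∈ ch j B → node j C
  nonempty : ∀ j B, node (j + 1) B → (ch j B).Nonempty
  spread : ∀ j B, node (j + 1) B → ∀ U : Finset X,
    (((ch j B).filter fun C => U ⊆ C \ B).card : ℝ) ≤ lam ^ U.card * (ch j B).card

variable {E : Finset X} {ch : ℕ → Finset X → Finset (Finset X)} {n : ℕ → ℕ} {lam : ℝ}
  {node : ℕ → Finset X → Prop}

lemma lossAt_nonneg (i : ℕ) : ∀ j, 0 ≤ lossAt n i j
  | 0 => le_rfl
  | j + 1 => by
    rw [lossAt]; split_ifs
    · exact lossAt_nonneg i j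
    · positivity

lemma lossAt_child (h : Chain E ch n lam node) {i : ℕ} :
    ∀ {j : ℕ}, n j / 2 ^ i ≠ 0 → lossAt n i j ≤ (1 / 64 : ℝ) ^ (8 * (n j / 2 ^ i))
  | 0, _ => by rw [lossAt]; positivity
  | j + 1, hj => by
    have h1 : 8 * (n (j + 1) / 2 ^ i) ≤ n j / 2 ^ i :=
      (Nat.mul_div_le_mul_div_assoc _ _ _).trans (Nat.div_le_div_right (h.grow j))
    rw [lossAt, if_neg (fun hc => hj ((Nat.mul_eq_zero.mp (Nat.le_zero.mp (h1.trans hc.le))).resolve_left (by norm_num)))]
    exact pow_le_pow_of_le_one (by norm_num) (by norm_num) h1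

lemma lossAt_le_half (i : ℕ) : ∀ j, lossAt n i j ≤ 1 / 2
  | 0 => by rw [lossAt]; norm_num
  | j + 1 => by
    rw [lossAt]; split_ifs with hz
    · exact lossAt_le_half i j
    · calc (1 / 64 : ℝ) ^ (n j / 2 ^ i) ≤ (1 / 64) ^ 1 :=
            pow_le_pow_of_le_one (by norm_num) (by norm_num) (Nat.pos_of_ne_zero hz)
        _ ≤ _ := by norm_num

lemma good_mono (hlam : 0 ≤ lam) {i : ℕ} : ∀ {j : ℕ} {B W W' : Finset X}, W ⊆ W' →
    Good ch n lam i j B W → Good ch n lam i j B W'
  | 0, _, _, _, _, _ => trivial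
  | j + 1, B, W, W', hW, hg => by
    simp only [Good] at hg ⊢
    split_ifs at hg ⊢ with hz
    · obtain ⟨C, hC, hs, hr⟩ := hg
      exact ⟨C, hC, hs.trans hW, good_mono hlam hW hr⟩
    · obtain ⟨nu, h0, h1, h2, h3⟩ := hg
      have hsub : ∀ C : Finset X, (C \ B) \ W' ⊆ (C \ B) \ W :=
        fun C => sdiff_subset_sdiff subset_rfl hW
      refine ⟨nu, h0, h1, fun C hC hne => ⟨(card_le_card (hsub C)).trans (h2 C hC hne).1,
        good_mono hlam hW (h2 C hC hne).2⟩, fun U => le_trans ?_ (h3 U)⟩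
      exact sum_le_sum_of_subset_of_nonneg
        (monotone_filter_right _ fun C _ hU => hU.trans (hsub C)) fun C _ _ => h0 C

lemma good_zero (h : Chain E ch n lam node) :
    ∀ (j : ℕ) (B : Finset X), node j B → Good ch n lam 0 j B ∅
  | 0, _, _ => trivial
  | j + 1, B, hB => by
    simp only [Good, pow_zero, Nat.div_one]
    obtain ⟨C0, hC0⟩ := h.nonempty j B hB
    split_ifs with hz
    · refine ⟨C0, hC0, ?_, good_zero h j C0 (h.child j B C0 hB hC0)⟩
      have := h.size j B C0 hC0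
      rw [card_eq_zero.mp (show (C0 \ B).card = 0 by omega)]
    · have hN : (0:ℝ) < (ch j B).card := Nat.cast_pos.mpr (card_pos.mpr ⟨C0, hC0⟩)
      refine ⟨fun _ => 1 / ((ch j B).card : ℝ), fun _ => by positivity, ?_, fun C hC _ =>
        ⟨by rw [sdiff_empty]; exact h.size j B C hC,
          good_zero h j C (h.child j B C hB hC)⟩, fun U => ?_⟩
      · rw [sum_const, nsmul_eq_mul]; field_simp
      · simp only [sdiff_empty, sum_const, nsmul_eq_mul]
        rw [mul_one_div, div_le_iff₀ hN]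
        refine (h.spread j B hB U).trans (mul_le_mul_of_nonneg_right ?_ hN.le)
        exact le_mul_of_one_le_left (pow_nonneg h.lam_nonneg _)
          (le_add_of_nonneg_right (by positivity))

lemma round_numerics {a : ℕ} (ha : 1 ≤ a) {r d : ℝ} (hr0 : 0 ≤ r)
    (hr : r ≤ (1 / 64) ^ 14) (hd : d ≤ (1 / 64) ^ (8 * a)) :
    (1 / 64 : ℝ) ^ (3 * a) + 2 * 2 ^ a * (r ^ (a / 2 + 1) + d) / (1 / 64) ^ (3 * a)
      ≤ (1 / 64) ^ (2 * a) := by
  set ρ : ℝ := 1 / 64 with hρ
  have hρ1 : ρ ≤ 1 := by rw [hρ]; norm_num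
  have hρ0 : 0 < ρ := by rw [hρ]; norm_num
  have h1 : r ^ (a / 2 + 1) ≤ ρ ^ (7 * a) := by
    refine (pow_le_pow_left₀ hr0 hr _).trans ?_
    rw [← pow_mul]
    exact pow_le_pow_of_le_one hρ0.le hρ1 (by omega)
  have h2 : d ≤ ρ ^ (7 * a) := hd.trans (pow_le_pow_of_le_one hρ0.le hρ1 (by omega))
  have h3 : (2:ℝ) * 2 ^ a * ρ ^ a ≤ 1 := by
    rw [mul_assoc, ← mul_pow]
    calc (2:ℝ) * (2 * ρ) ^ a ≤ 2 * (2 * ρ) ^ 1 := by
          refine mul_le_mul_of_nonneg_left (pow_le_pow_of_le_one ?_ ?_ ha) zero_le_two <;>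
            (rw [hρ]; norm_num)
      _ ≤ 1 := by rw [hρ]; norm_num
  have h4 : 2 * 2 ^ a * (r ^ (a / 2 + 1) + d) / ρ ^ (3 * a) ≤ 2 * ρ ^ (3 * a) := by
    rw [div_le_iff₀ (pow_pos hρ0 _)]
    calc 2 * 2 ^ a * (r ^ (a / 2 + 1) + d) ≤ 2 * 2 ^ a * (2 * ρ ^ (7 * a)) :=
          mul_le_mul_of_nonneg_left (by linarith) (by positivity)
      _ = (2 * 2 ^ a * ρ ^ a) * (2 * ρ ^ (6 * a)) := by
          rw [show 7 * a = a + 6 * a by omega, pow_add]; ring
      _ ≤ 1 * (2 * ρ ^ (6 * a)) := mul_le_mul_of_nonneg_right h3 (by positivity)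
      _ = _ := by rw [one_mul, mul_assoc, ← pow_add]; congr 2; omega
  have h5 : 3 * ρ ^ a ≤ 1 := by
    calc 3 * ρ ^ a ≤ 3 * ρ ^ 1 :=
          mul_le_mul_of_nonneg_left (pow_le_pow_of_le_one hρ0.le hρ1 ha) (by norm_num)
      _ ≤ 1 := by rw [hρ]; norm_num
  calc ρ ^ (3 * a) + 2 * 2 ^ a * (r ^ (a / 2 + 1) + d) / ρ ^ (3 * a)
      ≤ ρ ^ (3 * a) + 2 * ρ ^ (3 * a) := by linarith
    _ = (3 * ρ ^ a) * ρ ^ (2 * a) := by
        rw [show 3 * a = a + 2 * a by omega, pow_add]; ring
    _ ≤ _ := mul_le_of_le_one_left (by positivity) h5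

lemma mass_numerics {a : ℕ} (ha : 2 ≤ a) :
    (1 + 1 / (a : ℝ)) ≤ (1 + 1 / ((a / 2 : ℕ) : ℝ)) * (1 - (1 / 64) ^ a) := by
  have hA : (2:ℝ) ≤ a := by exact_mod_cast ha
  have hb : (0:ℝ) < ((a / 2 : ℕ) : ℝ) := Nat.cast_pos.mpr (by omega)
  have h2 : 2 / (a:ℝ) ≤ 1 / ((a / 2 : ℕ) : ℝ) := by
    rw [div_le_div_iff₀ (by linarith) hb, one_mul]
    exact_mod_cast (show 2 * (a / 2) ≤ a by omega)
  have h3 : (a:ℝ) * (1 / 64) ^ a ≤ 1 / 4 := by
    have h : (a:ℝ) ≤ 2 ^ a := by exact_mod_cast Nat.lt_two_pow_self.le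
    calc (a:ℝ) * (1 / 64) ^ a ≤ 2 ^ a * (1 / 64) ^ a :=
          mul_le_mul_of_nonneg_right h (by positivity)
      _ = (1 / 32 : ℝ) ^ a := by rw [← mul_pow]; norm_num
      _ ≤ (1 / 32 : ℝ) ^ 1 := pow_le_pow_of_le_one (by norm_num) (by norm_num) (by omega)
      _ ≤ _ := by norm_num
  have h4 : (1 / 64 : ℝ) ^ a ≤ 1 := pow_le_one₀ (by norm_num) (by norm_num)
  refine le_trans ?_ (mul_le_mul_of_nonneg_right (add_le_add le_rfl h2) (by linarith))
  have h5 : (1 + 2 / (a:ℝ)) * (1 / 64) ^ a ≤ 1 / (a:ℝ) := by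
    rw [show 1 + 2 / (a:ℝ) = ((a:ℝ) + 2) / a by field_simp, div_mul_eq_mul_div]
    refine div_le_div_of_nonneg_right ?_ (by linarith)
    nlinarith [pow_nonneg (show (0:ℝ) ≤ 1 / 64 by norm_num) a]
  have h6 : 2 / (a:ℝ) = 1 / a + 1 / a := by ring
  nlinarith

open Classical in
/-- One round: every node advances except with probability `lossAt`. -/
theorem good_step (h : Chain E ch n lam node) {p : ℝ} (hp : 0 < p) (hp1 : p ≤ 1)
    (hlp : lam / p ≤ (1 / 64) ^ 14) {i : ℕ} : ∀ (j : ℕ) (B W : Finset X),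
    Good ch n lam i j B W →
    ∑ R ∈ E.powerset, bw E p R * (if Good ch n lam (i + 1) j B (W ∪ R) then (0:ℝ) else 1)
      ≤ lossAt n i j
  | 0, B, W, _ => by simp [Good, lossAt]
  | j + 1, B, W, hg => by
    have hb : ∀ R, 0 ≤ bw E p R := bw_nonneg E hp.le hp1
    have hdiv : n j / 2 ^ (i + 1) = n j / 2 ^ i / 2 := by
      rw [pow_succ, Nat.div_div_eq_div_mul]
    simp only [Good, hdiv] at hg ⊢
    rw [lossAt]
    by_cases hz : n j / 2 ^ i = 0
    · rw [if_pos hz] at hg ⊢
      obtain ⟨C, hC, hs, hr⟩ := hg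
      refine le_trans (sum_le_sum fun R _ => mul_le_mul_of_nonneg_left ?_ (hb R))
        (good_step h hp hp1 hlp j C W hr)
      have hz' : n j / 2 ^ i / 2 = 0 := by rw [hz]
      by_cases hq : Good ch n lam (i + 1) j C (W ∪ R)
      · rw [if_pos hq, if_pos (by rw [if_pos hz']; exact ⟨C, hC, hs.trans subset_union_left, hq⟩)]
      · rw [if_neg hq]; split_ifs <;> norm_num
    rw [if_neg hz] at hg ⊢
    obtain ⟨nu, h0, h1, h2, h3⟩ := hg
    set a := n j / 2 ^ i with hadef
    have ha1 : 1 ≤ a := Nat.pos_of_ne_zero hz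
    set T : Finset X → Finset X := fun C => (C \ B) \ W
    set bad : Finset X → Finset X → Prop := fun C R => ¬ Good ch n lam (i + 1) j C (W ∪ R)
    set eta : ℝ := (1 / 64) ^ (3 * a)
    set eps : ℝ := (1 / 64) ^ a
    have heta : 0 < eta := by positivity
    have heps : 0 < eps := by positivity
    set f : Finset X → ℝ := fail (ch j B) nu T p eta (a / 2 + 1) bad
    have hM : (1 + 1 / (a:ℝ)) ≤ 2 := by
      have : (1:ℝ) / a ≤ 1 := by
        rw [div_le_one (by exact_mod_cast ha1)]; exact_mod_cast ha1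
      linarith
    have hlamp : lam ≤ p := by
      have : lam / p ≤ 1 := hlp.trans (by norm_num)
      rwa [div_le_one hp] at this
    have hf : ∑ R ∈ E.powerset, bw E p R * f R ≤ eps * eps := by
      refine (fail_le (del := lossAt n i j) h0 h1 hp hp1
        (fun C hC => sdiff_subset.trans (sdiff_subset.trans (h.sub j B C hC))) h.lam_nonneg
        (by positivity) hlamp h3 (fun C hC hne => (h2 C hC hne).1) heta (lossAt_nonneg i j)
        (a / 2 + 1) bad ?_ ?_).trans ?_
      · intro d R S hq hgood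
        exact hq (good_mono h.lam_nonneg (union_subset_union_right subset_union_left) hgood)
      · intro C hC hne
        refine le_of_eq_of_le ?_ (good_step h hp hp1 hlp j C W (h2 C hC hne).2)
        refine sum_congr rfl fun R _ => ?_
        simp only [bad]; split_ifs <;> simp_all
      · have hd := lossAt_nonneg (n := n) i j
        have hr : 0 ≤ lam / p := div_nonneg h.lam_nonneg hp.le
        refine le_trans (add_le_add le_rfl (div_le_div_of_nonneg_right
          (mul_le_mul_of_nonneg_right (mul_le_mul_of_nonneg_right hM (by positivity))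
            (by positivity)) heta.le)) ?_
        refine (round_numerics ha1 hr hlp (lossAt_child h hz)).trans (le_of_eq ?_)
        simp only [eps]; rw [← pow_add]; congr 1; omega
    have hpost := post_nonneg (s := ch j B) (T := T) h0 hp eta
    have hf0 : ∀ R, 0 ≤ f R := fun R => sum_nonneg fun c _ => mul_nonneg (h0 c) (add_nonneg
      (by split_ifs <;> norm_num)
      (sum_nonneg fun d _ => mul_nonneg (hpost R c d) (by split_ifs <;> norm_num)))
    have key : ∀ R : Finset X, f R ≤ eps →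
        (if a / 2 = 0 then ∃ C ∈ ch j B, C \ B ⊆ W ∪ R ∧ Good ch n lam (i + 1) j C (W ∪ R)
        else ∃ mu : Finset X → ℝ, (∀ C, 0 ≤ mu C) ∧ ∑ C ∈ ch j B, mu C = 1 ∧
          (∀ C ∈ ch j B, mu C ≠ 0 →
            ((C \ B) \ (W ∪ R)).card ≤ a / 2 ∧ Good ch n lam (i + 1) j C (W ∪ R)) ∧
          ∀ U : Finset X, ∑ C ∈ ch j B with U ⊆ (C \ B) \ (W ∪ R), mu C
            ≤ (1 + 1 / ((a / 2 : ℕ) : ℝ)) * lam ^ U.card) := by
      intro R hR
      set g : Finset X → Finset X → ℝ := fun c d =>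
        post (ch j B) nu T p eta R c d *
          (if a / 2 + 1 ≤ (T d ∩ T c).card ∨ bad d R then 0 else 1)
      set mu0 : Finset X → ℝ := fun d => ∑ c ∈ ch j B, nu c * g c d with hmu0
      have hg0 : ∀ c d, 0 ≤ g c d := fun c d =>
        mul_nonneg (hpost R c d) (by split_ifs <;> norm_num)
      have hmu0n : ∀ d, 0 ≤ mu0 d := fun d => sum_nonneg fun c _ => mul_nonneg (h0 c) (hg0 c d)
      have hsum : ∑ d ∈ ch j B, mu0 d + f R = 1 := by
        simp only [hmu0]
        rw [sum_comm]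
        simp only [← mul_sum, f, fail]
        rw [← sum_add_distrib]
        refine Eq.trans (sum_congr rfl fun c hc => ?_) h1
        rw [← mul_add]
        have hsplit : ∑ d ∈ ch j B, g c d + ((if dens (ch j B) nu T p (R ∪ T c) < eta then 1 else 0)
            + ∑ d ∈ ch j B, post (ch j B) nu T p eta R c d *
              (if a / 2 + 1 ≤ (T d ∩ T c).card ∨ bad d R then 1 else 0)) = 1 := by
          rw [add_left_comm, ← sum_add_distrib]
          by_cases hs : dens (ch j B) nu T p (R ∪ T c) < eta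
          · simp [g, post, hs]
          · rw [if_neg hs, zero_add]
            refine Eq.trans (sum_congr rfl fun d _ => ?_) ((post_sum heta R c).2 hs)
            simp only [g]; split_ifs <;> ring
        convert (congrArg (fun x => nu c * x) hsplit).trans (mul_one _)
      have hs : 1 - eps ≤ ∑ d ∈ ch j B, mu0 d := by linarith
      have heps1 : eps < 1 := pow_lt_one₀ (by norm_num) (by norm_num) (by omega)
      have hwit : ∀ d, mu0 d ≠ 0 → ∃ c ∈ ch j B, nu d ≠ 0 ∧ T d ⊆ R ∪ T c ∧
          (T d ∩ T c).card ≤ a / 2 ∧ Good ch n lam (i + 1) j d (W ∪ R) := by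
        intro d hd
        obtain ⟨c, hc, hne⟩ := exists_ne_zero_of_sum_ne_zero hd
        have hne' : g c d ≠ 0 := right_ne_zero_of_mul hne
        simp only [g] at hne'
        obtain ⟨hnu, hsub⟩ := post_support (left_ne_zero_of_mul hne')
        have hok := right_ne_zero_of_mul hne'
        split_ifs at hok with hh
        · exact absurd rfl hok
        simp only [not_or, bad, not_not] at hh
        exact ⟨c, hc, hnu, hsub, by omega, hh.2⟩
      have hres : ∀ d c, T d ⊆ R ∪ T c → (d \ B) \ (W ∪ R) ⊆ T d ∩ T c := by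
        intro d c hsub x hx
        simp only [T, mem_sdiff, mem_union, not_or, mem_inter] at hx ⊢
        have hxT : x ∈ T d := mem_sdiff.mpr ⟨mem_sdiff.mpr hx.1, hx.2.1⟩
        rcases mem_union.mp (hsub hxT) with hR' | hT'
        · exact absurd hR' hx.2.2
        · exact ⟨⟨hx.1, hx.2.1⟩, by simpa [T, mem_sdiff] using hT'⟩
      split_ifs with ha2
      · obtain ⟨d, hd, hne⟩ := exists_ne_zero_of_sum_ne_zero
          (show ∑ d ∈ ch j B, mu0 d ≠ 0 by linarith)
        obtain ⟨c, _, _, hsub, hcard, hgood⟩ := hwit d hne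
        refine ⟨d, hd, ?_, hgood⟩
        have h' := card_le_card (hres d c hsub)
        have : ((d \ B) \ (W ∪ R)).card = 0 := by omega
        rwa [card_eq_zero, sdiff_eq_empty_iff_subset] at this
      · set S := ∑ d ∈ ch j B, mu0 d
        have hS : 0 < S := by linarith
        refine ⟨fun d => mu0 d / S, fun d => div_nonneg (hmu0n d) hS.le,
          by rw [← sum_div]; exact div_self hS.ne', fun d hd hne => ?_, fun U => ?_⟩
        · obtain ⟨c, _, _, hsub, hcard, hgood⟩ := hwit d (fun e => hne (by simp [e]))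
          exact ⟨(card_le_card (hres d c hsub)).trans hcard, hgood⟩
        · rw [← sum_div, div_le_iff₀ hS]
          have hU : ∑ d ∈ ch j B with U ⊆ (d \ B) \ (W ∪ R), mu0 d
              ≤ (1 + 1 / (a:ℝ)) * lam ^ U.card := by
            refine le_trans ?_ (h3 U)
            simp only [hmu0]
            rw [sum_comm, sum_filter (s := ch j B)]
            refine sum_le_sum fun c _ => ?_
            split_ifs with hUc
            · rw [← mul_sum]
              refine mul_le_of_le_one_right (h0 c) ?_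
              refine le_trans (sum_le_sum_of_subset_of_nonneg (filter_subset _ _)
                fun d _ _ => hg0 c d) (le_trans (sum_le_sum fun d _ => ?_) (post_sum (nu := nu) (T := T) (p := p) heta R c).1)
              exact mul_le_of_le_one_right (hpost R c d) (by split_ifs <;> norm_num)
            · refine le_of_eq (sum_eq_zero fun d hd => ?_)
              by_contra hne
              have hne' : g c d ≠ 0 := right_ne_zero_of_mul hne
              simp only [g] at hne'
              obtain ⟨-, hsub⟩ := post_support (left_ne_zero_of_mul hne')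
              exact hUc (((mem_filter.mp hd).2.trans (hres d c hsub)).trans inter_subset_right)
          refine hU.trans (le_trans (mul_le_mul_of_nonneg_right (mass_numerics (by omega))
            (pow_nonneg h.lam_nonneg _)) ?_)
          rw [mul_right_comm]
          exact mul_le_mul_of_nonneg_left hs
            (mul_nonneg (by positivity) (pow_nonneg h.lam_nonneg _))
    refine le_of_mul_le_mul_right (le_trans ?_ hf) heps
    rw [sum_mul]
    refine sum_le_sum fun R _ => ?_
    rw [mul_assoc]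
    refine mul_le_mul_of_nonneg_left ?_ (hb R)
    by_cases hR : f R ≤ eps
    · rw [if_pos (key R hR), zero_mul]; exact hf0 R
    · split_ifs <;> simp <;> linarith [hf0 R]

end Vale.Agent.P064
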