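import Vale.Agent.P064.Spread

/-!
# P064: one round of resampling from the posterior

A law `nu` on indices `c` with residual sets `T c` is given. A round samples `R` at rate `p`;
the new index is drawn from the posterior of `c` given `R ∪ T c`, the planted set.
-/

namespace Vale.Agent.P064

open Finset

variable {X : Type} [DecidableEq X]

lemma bw_mem_shift (E : Finset X) (p : ℝ) {x : X} (hx : x ∈ E) (φ : Finset X → ℝ) :
    ∑ R ∈ E.powerset, bw E p R * (if x ∈ R then φ R else 0)
      = p * ∑ R ∈ E.powerset, bw E p R * φ (insert x R) := by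
  obtain ⟨E', hxE, rfl⟩ : ∃ E', x ∉ E' ∧ insert x E' = E :=
    ⟨E.erase x, notMem_erase x E, insert_erase hx⟩
  rw [sum_powerset_insert hxE, sum_powerset_insert hxE, ← sum_add_distrib, ← sum_add_distrib,
    mul_sum]
  refine sum_congr rfl fun R hR => ?_
  obtain ⟨a1, a2⟩ := bw_insert hxE p (mem_powerset.mp hR)
  have hxR : x ∉ R := fun h => hxE (mem_powerset.mp hR h)
  rw [a1, a2, if_neg hxR, if_pos (mem_insert_self x R), insert_idem]
  ring

lemma bw_subset_shift (E : Finset X) (p : ℝ) :
    ∀ (S : Finset X), S ⊆ E → ∀ φ : Finset X → ℝ,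
    ∑ R ∈ E.powerset, bw E p R * (if S ⊆ R then φ R else 0)
      = p ^ S.card * ∑ R ∈ E.powerset, bw E p R * φ (R ∪ S) := by
  intro S
  induction S using Finset.induction_on with
  | empty => intro _ φ; simp
  | @insert x S hxS ih =>
    intro hS φ
    rw [insert_subset_iff] at hS
    have h1 : ∀ R : Finset X, (if insert x S ⊆ R then φ R else 0)
        = (if x ∈ R then (if S ⊆ R then φ R else 0) else 0) := by
      intro R
      by_cases hx : x ∈ R <;> by_cases hs : S ⊆ R <;> simp [insert_subset_iff, hx, hs]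
    simp only [h1]
    rw [bw_mem_shift E p hS.1, card_insert_of_notMem hxS, pow_succ', mul_assoc]
    congr 1
    have h2 : ∀ R : Finset X, (if S ⊆ insert x R then φ (insert x R) else 0)
        = (if S ⊆ R then φ (insert x R) else 0) := by
      intro R
      simp only [subset_insert_iff_of_notMem hxS]
    simp only [h2]
    rw [ih hS.2 fun R => φ (insert x R)]
    congr 1
    refine sum_congr rfl fun R _ => ?_
    rw [union_insert]

variable {α : Type} (s : Finset α) (nu : α → ℝ) (T : α → Finset X) (p : ℝ)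

/-- The weight of `c` in the planted density at `Y`. -/
noncomputable def wgt (c : α) (Y : Finset X) : ℝ :=
  if T c ⊆ Y then nu c / p ^ (T c).card else 0

/-- The planted density at `Y` against the product measure. -/
noncomputable def dens (Y : Finset X) : ℝ := ∑ c ∈ s, wgt nu T p c Y

open Classical in
/-- The posterior weight of `d` given the sample `R` and the hidden index `c`, where samples with
planted density below `eta` are discarded. -/
noncomputable def post (eta : ℝ) (R : Finset X) (c d : α) : ℝ :=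
  if dens s nu T p (R ∪ T c) < eta then 0
  else wgt nu T p d (R ∪ T c) / dens s nu T p (R ∪ T c)

open Classical in
/-- Probability, given `R`, that the resampled index is not usable: the density is small, the
overlap is at least `k`, or `bad` occurs. -/
noncomputable def fail (eta : ℝ) (k : ℕ) (bad : α → Finset X → Prop) (R : Finset X) : ℝ :=
  ∑ c ∈ s, nu c * ((if dens s nu T p (R ∪ T c) < eta then 1 else 0) +
    ∑ d ∈ s, post s nu T p eta R c d * (if k ≤ (T d ∩ T c).card ∨ bad d R then 1 else 0))

variable {s nu T p}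

lemma wgt_nonneg (h0 : ∀ c, 0 ≤ nu c) (hp : 0 < p) (c : α) (Y : Finset X) :
    0 ≤ wgt nu T p c Y := by
  rw [wgt]; split_ifs
  · exact div_nonneg (h0 c) (pow_nonneg hp.le _)
  · exact le_rfl

lemma post_nonneg (h0 : ∀ c, 0 ≤ nu c) (hp : 0 < p) (eta : ℝ) (R : Finset X) (c d : α) :
    0 ≤ post s nu T p eta R c d := by
  rw [post]; split_ifs
  · exact le_rfl
  · exact div_nonneg (wgt_nonneg h0 hp _ _) (sum_nonneg fun e _ => wgt_nonneg h0 hp _ _)

lemma post_sum {eta : ℝ} (heta : 0 < eta) (R : Finset X)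
    (c : α) :
    ∑ d ∈ s, post s nu T p eta R c d ≤ 1 ∧
      (¬ dens s nu T p (R ∪ T c) < eta → ∑ d ∈ s, post s nu T p eta R c d = 1) := by
  simp only [post]
  by_cases hz : dens s nu T p (R ∪ T c) < eta
  · simp [hz]
  · simp only [if_neg hz]
    have h1 : ∑ d ∈ s, wgt nu T p d (R ∪ T c) / dens s nu T p (R ∪ T c) = 1 := by
      rw [← sum_div]
      exact div_self (lt_of_lt_of_le heta (not_lt.mp hz)).ne'
    exact ⟨h1.le, fun _ => h1⟩

lemma post_support {eta : ℝ} {R : Finset X} {c d : α}
    (h : post s nu T p eta R c d ≠ 0) : nu d ≠ 0 ∧ T d ⊆ R ∪ T c := by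
  rw [post] at h
  split_ifs at h with hz
  · exact absurd rfl h
  · have hw : wgt nu T p d (R ∪ T c) ≠ 0 := fun e => h (by rw [e, zero_div])
    rw [wgt] at hw
    split_ifs at hw with hs
    · exact ⟨fun e => hw (by rw [e, zero_div]), hs⟩
    · exact absurd rfl hw

lemma small_dens_le {E : Finset X} (hp : 0 < p) (hp1 : p ≤ 1)
    (hT : ∀ c ∈ s, T c ⊆ E) {eta : ℝ} (heta : 0 ≤ eta) :
    ∑ R ∈ E.powerset, bw E p R * ∑ c ∈ s, nu c *
      (if dens s nu T p (R ∪ T c) < eta then (1:ℝ) else 0) ≤ eta := by
  simp only [mul_sum]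
  rw [sum_comm]
  have h1 : ∀ c ∈ s, ∑ R ∈ E.powerset,
      bw E p R * (nu c * (if dens s nu T p (R ∪ T c) < eta then (1:ℝ) else 0))
      = ∑ Y ∈ E.powerset, bw E p Y *
          (wgt nu T p c Y * (if dens s nu T p Y < eta then (1:ℝ) else 0)) := by
    intro c hc
    have h := bw_subset_shift E p (T c) (hT c hc)
      fun Y => nu c / p ^ (T c).card * (if dens s nu T p Y < eta then (1:ℝ) else 0)
    rw [mul_sum] at h
    have hpne : p ^ (T c).card ≠ 0 := (pow_pos hp _).ne'
    refine Eq.trans ?_ (h.symm.trans ?_)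
    · refine sum_congr rfl fun R _ => ?_
      field_simp
    · refine sum_congr rfl fun Y _ => ?_
      rw [wgt]
      split_ifs <;> ring
  rw [sum_congr rfl h1, sum_comm]
  simp only [← mul_sum, ← sum_mul]
  calc ∑ Y ∈ E.powerset, bw E p Y * (dens s nu T p Y * if dens s nu T p Y < eta then 1 else 0)
      ≤ ∑ Y ∈ E.powerset, bw E p Y * eta := by
        refine sum_le_sum fun Y _ => mul_le_mul_of_nonneg_left ?_ (bw_nonneg E hp.le hp1 Y)
        split_ifs with hz
        · rw [mul_one]; exact hz.le
        · rw [mul_zero]; exact heta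
    _ = eta := by rw [← sum_mul, bw_sum, one_mul]

lemma overlap_le (h0 : ∀ c, 0 ≤ nu c) (hp : 0 < p) {lam M : ℝ} (hlam : 0 ≤ lam) (hM : 0 ≤ M)
    (hlp : lam ≤ p)
    (hspr : ∀ U : Finset X, ∑ c ∈ s with U ⊆ T c, nu c ≤ M * lam ^ U.card)
    (D : Finset X) (k : ℕ) :
    ∑ c ∈ s, nu c * (if k ≤ (D ∩ T c).card then (1 / p ^ (D ∩ T c).card : ℝ) else 0)
      ≤ M * 2 ^ D.card * (lam / p) ^ k := by
  set P := D.powerset.filter (fun S => k ≤ S.card)
  calc ∑ c ∈ s, nu c * (if k ≤ (D ∩ T c).card then (1 / p ^ (D ∩ T c).card : ℝ) else 0)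
      ≤ ∑ c ∈ s, ∑ S ∈ P, if S ⊆ T c then nu c / p ^ S.card else 0 := by
        refine sum_le_sum fun c _ => ?_
        split_ifs with hk
        · refine le_trans (le_of_eq ?_) (single_le_sum (s := P)
            (f := fun S => if S ⊆ T c then nu c / p ^ S.card else 0) (fun S _ => ?_)
            (a := D ∩ T c) ?_)
          · simp [inter_subset_right, div_eq_mul_inv]
          · split_ifs
            · exact div_nonneg (h0 c) (pow_nonneg hp.le _)
            · exact le_rfl
          · simp [P, inter_subset_left, hk]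
        · rw [mul_zero]
          refine sum_nonneg fun S _ => ?_
          split_ifs
          · exact div_nonneg (h0 c) (pow_nonneg hp.le _)
          · exact le_rfl
    _ = ∑ S ∈ P, (∑ c ∈ s with S ⊆ T c, nu c) / p ^ S.card := by
        rw [sum_comm]
        refine sum_congr rfl fun S _ => ?_
        rw [← sum_filter, sum_div]
    _ ≤ ∑ S ∈ P, M * (lam / p) ^ k := by
        refine sum_le_sum fun S hS => ?_
        refine (div_le_div_of_nonneg_right (hspr S) (pow_nonneg hp.le _)).trans ?_
        rw [mul_div_assoc, ← div_pow]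
        exact mul_le_mul_of_nonneg_left (pow_le_pow_of_le_one (div_nonneg hlam hp.le)
          ((div_le_one hp).mpr hlp) (mem_filter.mp hS).2) hM
    _ ≤ _ := by
        rw [sum_const, nsmul_eq_mul]
        have : (P.card : ℝ) ≤ 2 ^ D.card := by
          have := (card_filter_le D.powerset (fun S => k ≤ S.card)).trans (card_powerset D).le
          exact_mod_cast this
        calc (P.card : ℝ) * (M * (lam / p) ^ k) ≤ 2 ^ D.card * (M * (lam / p) ^ k) :=
              mul_le_mul_of_nonneg_right this (by positivity)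
          _ = _ := by ring

open Classical in
/-- The expected failure probability of one round. -/
theorem fail_le (h0 : ∀ c, 0 ≤ nu c) (h1 : ∑ c ∈ s, nu c = 1) {E : Finset X} (hp : 0 < p)
    (hp1 : p ≤ 1) (hT : ∀ c ∈ s, T c ⊆ E) {lam M : ℝ} (hlam : 0 ≤ lam) (hM : 0 ≤ M)
    (hlp : lam ≤ p)
    (hspr : ∀ U : Finset X, ∑ c ∈ s with U ⊆ T c, nu c ≤ M * lam ^ U.card)
    {a : ℕ} (ha : ∀ c ∈ s, nu c ≠ 0 → (T c).card ≤ a)
    {eta del : ℝ} (heta : 0 < eta) (hdel : 0 ≤ del) (k : ℕ) (bad : α → Finset X → Prop)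
    (hanti : ∀ d R S, bad d (R ∪ S) → bad d R)
    (hbad : ∀ d ∈ s, nu d ≠ 0 →
      ∑ R ∈ E.powerset, bw E p R * (if bad d R then (1:ℝ) else 0) ≤ del) :
    ∑ R ∈ E.powerset, bw E p R * fail s nu T p eta k bad R
      ≤ eta + M * 2 ^ a * ((lam / p) ^ k + del) / eta := by
  set e : α → α → Finset X → ℝ := fun d c R =>
    (if T d ⊆ R ∪ T c then (1:ℝ) else 0) *
      ((if k ≤ (T d ∩ T c).card then 1 else 0) + (if bad d R then 1 else 0))
  have hb : ∀ R, 0 ≤ bw E p R := bw_nonneg E hp.le hp1
  have hpt : ∀ R : Finset X, fail s nu T p eta k bad R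
      ≤ (∑ c ∈ s, nu c * (if dens s nu T p (R ∪ T c) < eta then (1:ℝ) else 0))
        + ∑ c ∈ s, ∑ d ∈ s, nu c * (nu d / p ^ (T d).card / eta) * e d c R := by
    intro R
    rw [fail, ← sum_add_distrib]
    refine sum_le_sum fun c _ => ?_
    rw [mul_add, mul_sum]
    refine add_le_add_right (sum_le_sum fun d _ => ?_) _
    rw [mul_assoc (nu c)]
    refine mul_le_mul_of_nonneg_left ?_ (h0 c)
    have hd : 0 ≤ nu d / p ^ (T d).card / eta :=
      div_nonneg (div_nonneg (h0 d) (pow_nonneg hp.le _)) heta.le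
    have hind : (if k ≤ (T d ∩ T c).card ∨ bad d R then (1:ℝ) else 0)
        ≤ (if k ≤ (T d ∩ T c).card then 1 else 0) + (if bad d R then 1 else 0) := by
      by_cases u : k ≤ (T d ∩ T c).card <;> by_cases v : bad d R <;> simp [u, v]
    have hpd : post s nu T p eta R c d
        ≤ nu d / p ^ (T d).card / eta * (if T d ⊆ R ∪ T c then 1 else 0) := by
      rw [post]
      split_ifs with hz hs hs
      · rw [mul_one]; exact hd
      · rw [mul_zero]
      · rw [mul_one, wgt, if_pos hs]
        exact div_le_div_of_nonneg_left (div_nonneg (h0 d) (pow_nonneg hp.le _)) heta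
          (not_lt.mp hz)
      · rw [mul_zero, wgt, if_neg hs, zero_div]
    calc post s nu T p eta R c d * _ ≤ (nu d / p ^ (T d).card / eta *
          (if T d ⊆ R ∪ T c then 1 else 0)) * _ :=
        mul_le_mul hpd hind (by split_ifs <;> norm_num)
          (mul_nonneg hd (by split_ifs <;> norm_num))
      _ = _ := by simp only [e]; rw [mul_assoc]
  refine (sum_le_sum fun R _ => mul_le_mul_of_nonneg_left (hpt R) (hb R)).trans ?_
  simp only [mul_add, sum_add_distrib]
  refine add_le_add (small_dens_le hp hp1 hT heta.le) ?_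
  have hpair : ∀ c ∈ s, ∀ d ∈ s, nu d ≠ 0 → ∑ R ∈ E.powerset, bw E p R * e d c R
      ≤ p ^ (T d \ T c).card * ((if k ≤ (T d ∩ T c).card then 1 else 0) + del) := by
    intro c _ d hd hne
    have hsub : T d \ T c ⊆ E := sdiff_subset.trans (hT d hd)
    have h := bw_subset_shift E p (T d \ T c) hsub
      fun R => (if k ≤ (T d ∩ T c).card then (1:ℝ) else 0) + (if bad d R then 1 else 0)
    refine le_trans (le_of_eq ?_) ((le_of_eq h).trans ?_)
    · refine sum_congr rfl fun R _ => ?_
      simp only [e]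
      have hiff : T d \ T c ⊆ R ↔ T d ⊆ R ∪ T c := by
        rw [union_comm]; exact sdiff_le_iff
      simp only [hiff]
      split_ifs <;> ring
    · refine mul_le_mul_of_nonneg_left ?_ (pow_nonneg hp.le _)
      simp only [mul_add, sum_add_distrib]
      refine add_le_add (by rw [← sum_mul, bw_sum, one_mul]) ?_
      refine le_trans (sum_le_sum fun R _ => mul_le_mul_of_nonneg_left ?_ (hb R)) (hbad d hd hne)
      by_cases hq : bad d (R ∪ (T d \ T c))
      · rw [if_pos hq, if_pos (hanti _ _ _ hq)]
      · rw [if_neg hq]; split_ifs <;> norm_num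
  calc ∑ R ∈ E.powerset, bw E p R * ∑ c ∈ s, ∑ d ∈ s,
        nu c * (nu d / p ^ (T d).card / eta) * e d c R
      = ∑ c ∈ s, ∑ d ∈ s, nu c * (nu d / p ^ (T d).card / eta) *
          ∑ R ∈ E.powerset, bw E p R * e d c R := by
        simp only [mul_sum]
        rw [sum_comm]
        refine sum_congr rfl fun c _ => ?_
        rw [sum_comm]
        exact sum_congr rfl fun d _ => sum_congr rfl fun R _ => by ring
    _ ≤ ∑ c ∈ s, ∑ d ∈ s, nu d / eta * (nu c *
          (if k ≤ (T d ∩ T c).card then (1 / p ^ (T d ∩ T c).card : ℝ) else 0)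
          + del * (nu c * (1 / p ^ (T d ∩ T c).card))) := by
        refine sum_le_sum fun c hc => sum_le_sum fun d hd => ?_
        rcases eq_or_ne (nu d) 0 with hz | hz
        · simp [hz]
        refine (mul_le_mul_of_nonneg_left (hpair c hc d hd hz) ?_).trans (le_of_eq ?_)
        · have := h0 c; have := h0 d; positivity
        have hcard : (T d).card = (T d \ T c).card + (T d ∩ T c).card :=
          (card_sdiff_add_card_inter (T d) (T c)).symm
        rw [hcard, pow_add]
        have := (pow_pos hp (T d \ T c).card).ne'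
        have := (pow_pos hp (T d ∩ T c).card).ne'
        split_ifs <;> field_simp <;> ring
    _ = ∑ d ∈ s, nu d / eta * ((∑ c ∈ s, nu c *
          (if k ≤ (T d ∩ T c).card then (1 / p ^ (T d ∩ T c).card : ℝ) else 0))
          + del * ∑ c ∈ s, nu c * (1 / p ^ (T d ∩ T c).card)) := by
        rw [sum_comm]
        refine sum_congr rfl fun d _ => ?_
        simp only [mul_sum, mul_add, sum_add_distrib]
    _ ≤ ∑ d ∈ s, nu d / eta * (M * 2 ^ a * ((lam / p) ^ k + del)) := by
        refine sum_le_sum fun d hd => ?_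
        rcases eq_or_ne (nu d) 0 with hz | hz
        · simp [hz]
        refine mul_le_mul_of_nonneg_left ?_ (div_nonneg (h0 d) heta.le)
        have hk := overlap_le h0 hp hlam hM hlp hspr (T d) k
        have hzero := overlap_le h0 hp hlam hM hlp hspr (T d) 0
        simp only [Nat.zero_le, if_true, pow_zero, mul_one] at hzero
        have h2 : M * (2:ℝ) ^ (T d).card ≤ M * 2 ^ a :=
          mul_le_mul_of_nonneg_left (pow_le_pow_right₀ one_le_two (ha d hd hz)) hM
        have h3 : (0:ℝ) ≤ (lam / p) ^ k := pow_nonneg (div_nonneg hlam hp.le) _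
        calc _ ≤ M * 2 ^ (T d).card * (lam / p) ^ k + del * (M * 2 ^ (T d).card) :=
              add_le_add hk (mul_le_mul_of_nonneg_left hzero hdel)
          _ ≤ M * 2 ^ a * (lam / p) ^ k + del * (M * 2 ^ a) :=
              add_le_add (mul_le_mul_of_nonneg_right h2 h3) (mul_le_mul_of_nonneg_left h2 hdel)
          _ = _ := by ring
    _ = _ := by rw [← sum_mul, ← sum_div, h1]; ring

end Vale.Agent.P064
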