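import Mathlib

namespace Vale.Agent.P064

open Finset

variable {X : Type} [Fintype X] [DecidableEq X] {ι : Type} [Fintype ι] (act : ι → X ≃ X)

/-- Image of a set under a relabelling. -/
def mv (s : ι) (A : Finset X) : Finset X := A.map (act s).toEmbedding

/-- All images of a set. -/
def orb (A : Finset X) : Finset (Finset X) := univ.image fun s => mv act s A

/-- Relabelling acts on sets. -/
def mvE (s : ι) : Finset X ≃ Finset X where
  toFun A := A.map (act s).toEmbedding
  invFun A := A.map (act s).symm.toEmbedding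
  left_inv A := by ext; simp
  right_inv A := by ext; simp

/-- Weighted load at scale `t`. -/
noncomputable def load (v : Finset X → ℝ) (t : ℝ) (A : Finset X) : ℝ :=
  ∑ S : Finset X, v S * (t ^ (S \ A).card * (1 + t) ^ (S ∩ A).card)

/-- Extension mass outside `A`. -/
noncomputable def ext' (v : Finset X → ℝ) (t : ℝ) (A : Finset X) : ℝ :=
  ∑ S ∈ univ.filter (fun S => ¬ S ⊆ A), v S * t ^ (S \ A).card

/-- Weights of the growth process, stopped once more than a quarter of `h` is reached. -/
noncomputable def grow (v : Finset X → ℝ) (t : ℝ) (h : ℕ) : ℕ → Finset X → Finset X → ℝ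
  | 0 => fun A U => if U = A then 1 else 0
  | r + 1 => fun A U => if h < 4 * A.card then (if U = A then 1 else 0) else
      ∑ S ∈ univ.filter (fun S => ¬ S ⊆ A), v S / ext' v t A * grow v t h r (A ∪ S) U

omit [Fintype X] [DecidableEq X] [Fintype ι] in
lemma mvE_apply (s : ι) (A : Finset X) : mvE act s A = mv act s A := rfl

lemma ext'_mv {v : Finset X → ℝ} (hv : ∀ s S, v (mv act s S) = v S) (t : ℝ) (s : ι)
    (A : Finset X) : ext' v t (mv act s A) = ext' v t A := by
  symm
  refine sum_equiv (mvE act s) (fun S => ?_) (fun S _ => ?_)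
  · erw [mem_filter, mem_filter]; simp [mvE_apply, mv]
  · rw [mvE_apply, hv]
    simp [mv, ← Finset.map_sdiff]

lemma grow_mv {v : Finset X → ℝ} (hv : ∀ s S, v (mv act s S) = v S) (t : ℝ) (h : ℕ) (s : ι) :
    ∀ r A U, grow v t h r (mv act s A) (mv act s U) = grow v t h r A U := by
  intro r
  induction r with
  | zero => intro A U; simp [grow, mv]
  | succ r ih =>
    intro A U
    simp only [grow]
    by_cases hA : h < 4 * A.card
    · simp [mv, hA]
    · have hA' : ¬ h < 4 * (mv act s A).card := by simpa [mv] using hA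
      rw [if_neg hA, if_neg hA']
      symm
      refine sum_equiv (mvE act s) (fun S => ?_) (fun S _ => ?_)
      · erw [mem_filter, mem_filter]; simp [mvE_apply, mv]
      · rw [mvE_apply, hv, ext'_mv act hv, ← ih (A ∪ S) U]
        simp [mv, map_union]

variable {v : Finset X → ℝ} {t : ℝ} (hv0 : ∀ S, 0 ≤ v S) (ht : 0 ≤ t)
include hv0 ht

omit [Fintype ι] in
lemma ext'_nonneg (A : Finset X) : 0 ≤ ext' v t A :=
  sum_nonneg fun S _ => mul_nonneg (hv0 S) (pow_nonneg ht _)

lemma grow_nonneg (h : ℕ) : ∀ r A U, 0 ≤ grow v t h r A U := by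
  intro r
  induction r with
  | zero => intro A U; simp only [grow]; split_ifs <;> norm_num
  | succ r ih =>
    intro A U
    simp only [grow]
    split_ifs
    · norm_num
    · norm_num
    · exact sum_nonneg fun S _ =>
        mul_nonneg (div_nonneg (hv0 S) (ext'_nonneg hv0 ht A)) (ih _ _)

lemma grow_cost (h : ℕ) :
    ∀ r A, ∑ U : Finset X, grow v t h r A U * t ^ U.card ≤ t ^ A.card := by
  intro r
  induction r with
  | zero => intro A; simp [grow]
  | succ r ih =>
    intro A
    simp only [grow]
    by_cases hA : h < 4 * A.card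
    · simp [hA]
    · simp only [if_neg hA, sum_mul]
      rw [sum_comm]
      simp only [mul_assoc, ← mul_sum]
      calc ∑ S ∈ univ.filter (fun S => ¬ S ⊆ A),
            v S / ext' v t A * ∑ U : Finset X, grow v t h r (A ∪ S) U * t ^ U.card
          ≤ ∑ S ∈ univ.filter (fun S => ¬ S ⊆ A), v S / ext' v t A * t ^ (A ∪ S).card :=
            sum_le_sum fun S _ => mul_le_mul_of_nonneg_left (ih _)
              (div_nonneg (hv0 S) (ext'_nonneg hv0 ht A))
        _ = ext' v t A / ext' v t A * t ^ A.card := by
            simp only [ext', sum_div, sum_mul]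
            refine sum_congr rfl fun S _ => ?_
            rw [union_comm, ← card_sdiff_add_card, pow_add]
            ring
        _ ≤ _ := mul_le_of_le_one_left (pow_nonneg ht _) (div_self_le_one _)

lemma grow_mass (H : Finset X)
    (hgain : ∀ A ⊆ H, 4 * A.card ≤ H.card →
      ext' v t A < ∑ S ∈ H.powerset.filter (fun S => ¬ S ⊆ A), v S) (htpos : 0 < t) :
    ∀ r A, A ⊆ H → H.card < 4 * (A.card + r) →
      1 ≤ ∑ U ∈ H.powerset.filter (fun U => H.card < 4 * U.card), grow v t H.card r A U := by
  intro r
  induction r with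
  | zero =>
    intro A hA hr
    have hm : A ∈ H.powerset.filter (fun U => H.card < 4 * U.card) := by
      simp only [mem_filter, mem_powerset]; exact ⟨hA, by omega⟩
    simp [grow, hm]
  | succ r ih =>
    intro A hA hr
    simp only [grow]
    by_cases hs : H.card < 4 * A.card
    · have hm : A ∈ H.powerset.filter (fun U => H.card < 4 * U.card) := by
        simp only [mem_filter, mem_powerset]; exact ⟨hA, hs⟩
      simp [hs, hm]
    simp only [if_neg hs]
    rw [sum_comm]
    simp only [← mul_sum]
    have hlt := hgain A hA (not_lt.mp hs)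
    have hZ : 0 < ext' v t A := by
      refine (ext'_nonneg hv0 ht A).lt_of_ne' fun hz => ?_
      have h0 : ∑ S ∈ H.powerset.filter (fun S => ¬ S ⊆ A), v S = 0 := by
        refine sum_eq_zero fun S hS => ?_
        have := (sum_eq_zero_iff_of_nonneg fun S _ => mul_nonneg (hv0 S) (pow_nonneg ht _)).mp hz S
          (by simpa using (mem_filter.mp hS).2)
        exact (mul_eq_zero.mp this).resolve_right (pow_pos htpos _).ne'
      linarith
    calc (1:ℝ) ≤ (∑ S ∈ H.powerset.filter (fun S => ¬ S ⊆ A), v S) / ext' v t A := by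
          rw [le_div_iff₀ hZ]; linarith
      _ = ∑ S ∈ H.powerset.filter (fun S => ¬ S ⊆ A), v S / ext' v t A := sum_div _ _ _
      _ ≤ ∑ S ∈ H.powerset.filter (fun S => ¬ S ⊆ A), v S / ext' v t A *
            ∑ U ∈ H.powerset.filter (fun U => H.card < 4 * U.card),
              grow v t H.card r (A ∪ S) U := by
          refine sum_le_sum fun S hS => le_mul_of_one_le_right (div_nonneg (hv0 S) hZ.le) ?_
          simp only [mem_filter, mem_powerset] at hS
          refine ih _ (union_subset hA hS.1) ?_
          have : A.card < (A ∪ S).card := card_lt_card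
            (Finset.ssubset_iff_subset_ne.mpr ⟨subset_union_left, fun he => hS.2 (by
              rw [he]; exact subset_union_right)⟩)
          omega
      _ ≤ _ := sum_le_sum_of_subset_of_nonneg
            (fun S hS => by simpa using (mem_filter.mp hS).2)
            (fun S _ _ => mul_nonneg (div_nonneg (hv0 S) hZ.le)
              (sum_nonneg fun U _ => grow_nonneg hv0 ht _ _ _ _))

omit hv0 ht in
/-- One scale: some set of at most a quarter of the size carries the weight inside `H`
at scale `32 * q`. -/
lemma one_scale [Nonempty ι] (hv : ∀ s S, v (mv act s S) = v S) (hv0 : ∀ S, 0 ≤ v S)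
    {q : ℝ} (hq : 0 < q) (H : Finset X)
    (hyp : ∀ U ⊆ H, U.Nonempty → 1 ≤ ((orb act U).card : ℝ) * q ^ U.card) :
    ∃ A ⊆ H, 4 * A.card ≤ H.card ∧
      ∑ S ∈ H.powerset, v S ≤ ∑ S : Finset X, v S * (32 * q) ^ (S \ A).card := by
  set t := 32 * q
  have htpos : 0 < t := by positivity
  by_cases hgain : ∀ A ⊆ H, 4 * A.card ≤ H.card →
      ext' v t A < ∑ S ∈ H.powerset.filter (fun S => ¬ S ⊆ A), v S
  · exfalso
    set h := H.card
    set W := grow v t h (h + 1) ∅
    set Us := H.powerset.filter (fun U => h < 4 * U.card)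
    have hmass : 1 ≤ ∑ U ∈ Us, W U :=
      grow_mass hv0 htpos.le H hgain htpos (h + 1) ∅ (empty_subset _) (by simp [h]; omega)
    have hterm : ∀ U ∈ Us, W U * (2:ℝ) ^ (h + 1) ≤ 1 := by
      intro U hU
      simp only [Us, mem_filter, mem_powerset] at hU
      have hne : U.Nonempty := card_pos.mp (by omega)
      have heq : ∀ U' ∈ orb act U, W U' * t ^ U'.card = W U * t ^ U.card := by
        intro U' hU'
        obtain ⟨s, -, rfl⟩ := mem_image.mp hU'
        have := grow_mv act hv t h s (h + 1) ∅ U
        simp only [W]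
        rw [show mv act s (∅ : Finset X) = ∅ by simp [mv]] at this
        rw [this]
        simp [mv]
      have h1 : ((orb act U).card : ℝ) * (W U * t ^ U.card) ≤ 1 := by
        calc ((orb act U).card : ℝ) * (W U * t ^ U.card)
            = ∑ U' ∈ orb act U, W U' * t ^ U'.card := by
              rw [sum_congr rfl heq, sum_const, nsmul_eq_mul]
          _ ≤ ∑ U' : Finset X, W U' * t ^ U'.card :=
              sum_le_sum_of_subset_of_nonneg (subset_univ _) fun U' _ _ =>
                mul_nonneg (grow_nonneg hv0 htpos.le _ _ _ _) (pow_nonneg htpos.le _)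
          _ ≤ _ := by simpa [W] using grow_cost hv0 htpos.le h (h + 1) ∅
      have h2 := hyp U hU.1 hne
      have hWn : 0 ≤ W U := grow_nonneg hv0 htpos.le _ _ _ _
      have h3 : W U * (32:ℝ) ^ U.card ≤ 1 := by
        refine le_trans ?_ h1
        calc W U * (32:ℝ) ^ U.card
            ≤ W U * 32 ^ U.card * (((orb act U).card : ℝ) * q ^ U.card) :=
              le_mul_of_one_le_right (by positivity) h2
          _ = _ := by simp only [t, mul_pow]; ring
      refine le_trans (mul_le_mul_of_nonneg_left ?_ hWn) h3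
      calc (2:ℝ) ^ (h + 1) ≤ 2 ^ (5 * U.card) := pow_le_pow_right₀ one_le_two (by omega)
        _ = _ := by rw [pow_mul]; norm_num
    have hcard : (Us.card : ℝ) ≤ 2 ^ h := by
      have : Us.card ≤ 2 ^ h := (card_filter_le _ _).trans (card_powerset H).le
      exact_mod_cast this
    have h4 : (∑ U ∈ Us, W U) * 2 ^ (h + 1) ≤ (Us.card : ℝ) := by
      rw [sum_mul]; simpa using sum_le_sum hterm
    rw [pow_succ] at h4
    nlinarith [pow_pos (two_pos (α := ℝ)) h]
  push Not at hgain
  obtain ⟨A, hA, hc, hle⟩ := hgain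
  refine ⟨A, hA, hc, ?_⟩
  rw [← sum_filter_add_sum_filter_not univ (fun S : Finset X => S ⊆ A),
    ← sum_filter_add_sum_filter_not H.powerset (fun S => S ⊆ A)]
  refine add_le_add (le_of_eq ?_) hle
  refine sum_congr ?_ fun S hS => ?_
  · ext S
    simp only [mem_filter, mem_powerset, mem_univ, true_and]
    exact ⟨fun h => h.2, fun h => ⟨h.trans hA, h⟩⟩
  · simp only [mem_filter, mem_univ, true_and] at hS
    simp [sdiff_eq_empty_iff_subset.mpr hS]

omit ht in
omit [Fintype ι] in
lemma load_zero (H : Finset X) : ∑ S ∈ H.powerset, v S ≤ load v 0 H := by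
  refine (sum_le_sum (fun S hS => ?_)).trans (sum_le_sum_of_subset_of_nonneg (subset_univ _)
    fun S _ _ => mul_nonneg (hv0 S) (by positivity))
  rw [mem_powerset] at hS
  simp [sdiff_eq_empty_iff_subset.mpr hS]

omit hv0 ht in
/-- One step down in size costs an additive `32 * q` in scale. -/
lemma load_step [Nonempty ι] (hv : ∀ s S, v (mv act s S) = v S) (hv0 : ∀ S, 0 ≤ v S)
    {q t : ℝ} (hq : 0 < q) (ht : 0 ≤ t) (H : Finset X)
    (hyp : ∀ U ⊆ H, U.Nonempty → 1 ≤ ((orb act U).card : ℝ) * q ^ U.card) :
    ∃ A ⊆ H, 4 * A.card ≤ H.card ∧ load v t H ≤ load v (t + 32 * q) A := by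
  set w : Finset X → ℝ := fun B => ∑ S ∈ univ.filter (B ⊆ ·), v S * t ^ (S \ B).card
  have hw0 : ∀ B, 0 ≤ w B := fun B => sum_nonneg fun S _ => mul_nonneg (hv0 S) (pow_nonneg ht _)
  have hw : ∀ s B, w (mv act s B) = w B := by
    intro s B
    symm
    refine sum_equiv (mvE act s) (fun S => ?_) (fun S _ => ?_)
    · erw [mem_filter, mem_filter]; simp [mvE_apply, mv]
    · rw [mvE_apply, hv]; simp [mv, ← Finset.map_sdiff]
  have hsum : ∀ (f : Finset X → ℝ), ∑ B : Finset X, w B * f B
      = ∑ S : Finset X, v S * ∑ B ∈ S.powerset, t ^ (S \ B).card * f B := by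
    intro f
    simp only [w, sum_mul, mul_sum, mul_assoc]
    exact sum_comm' (by intro B S; simp)
  obtain ⟨A, hA, hc, hle⟩ := one_scale act hw hw0 hq H hyp
  refine ⟨A, hA, hc, le_trans (le_of_eq ?_) (hle.trans ?_)⟩
  · have h1 := hsum fun B => if B ⊆ H then (1:ℝ) else 0
    simp only [mul_ite, mul_one, mul_zero, ← sum_filter] at h1
    have e : (univ.filter fun B : Finset X => B ⊆ H) = H.powerset := by ext B; simp
    rw [e] at h1
    rw [h1]
    refine sum_congr rfl fun S _ => ?_
    congr 1
    have e2 : S.powerset.filter (· ⊆ H) = (S ∩ H).powerset := by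
      ext B; simp only [mem_filter, mem_powerset, subset_inter_iff]
    rw [e2]
    have h2 : (1 + t) ^ (S ∩ H).card
        = ∑ B ∈ (S ∩ H).powerset, t ^ ((S ∩ H) \ B).card := by
      rw [← sum_pow_mul_eq_add_pow 1 t (S ∩ H)]
      refine sum_congr rfl fun B hB => ?_
      rw [card_sdiff_of_subset (mem_powerset.mp hB)]; simp
    rw [h2, mul_sum]
    refine sum_congr rfl fun B hB => ?_
    rw [← pow_add]
    congr 1
    have hBSH := mem_powerset.mp hB
    rw [card_sdiff_of_subset hBSH,
      card_sdiff_of_subset (hBSH.trans inter_subset_left)]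
    have := card_sdiff_add_card_inter S H
    have := card_le_card hBSH
    omega
  · rw [hsum]
    refine sum_le_sum fun S _ => mul_le_mul_of_nonneg_left ?_ (hv0 S)
    set r := 32 * q
    have hr : 0 ≤ r := by positivity
    set f : X → ℝ := fun x => if x ∈ A then 1 else r
    have hf : ∀ B : Finset X, r ^ (B \ A).card = ∏ x ∈ B, f x := by
      intro B
      simp only [f, prod_ite, prod_const_one, one_mul, prod_const, sdiff_eq_filter]
    calc ∑ B ∈ S.powerset, t ^ (S \ B).card * r ^ (B \ A).card
        = ∏ x ∈ S, (f x + t) := by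
          rw [prod_add]
          refine sum_congr rfl fun B _ => ?_
          rw [hf, prod_const]; ring
      _ = (r + t) ^ (S \ A).card * (1 + t) ^ (S ∩ A).card := by
          rw [← prod_filter_mul_prod_filter_not S (fun x => x ∈ A)]
          rw [filter_mem_eq_inter, ← sdiff_eq_filter]
          have e1 : ∀ x ∈ S ∩ A, f x + t = 1 + t := fun x hx => by
            simp only [f, if_pos (mem_inter.mp hx).2]
          have e2 : ∀ x ∈ S \ A, f x + t = r + t := fun x hx => by
            simp only [f, if_neg (mem_sdiff.mp hx).2]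
          rw [prod_congr rfl e1, prod_const, prod_congr rfl e2, prod_const]
          ring
      _ ≤ _ := by
          rw [add_comm r t]
          exact mul_le_mul_of_nonneg_left
            (pow_le_pow_left₀ (by linarith) (by linarith) _) (pow_nonneg (by linarith) _)

omit hv0 ht in
/-- If no subset of `H` has a cheap orbit, the weight inside `H` is at most the total weight at
scale `32 * K * q`, where `4 ^ K` exceeds the size of `H`. -/
theorem below_le [Nonempty ι] (hv : ∀ s S, v (mv act s S) = v S) (hv0 : ∀ S, 0 ≤ v S)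
    {q : ℝ} (hq : 0 < q) (H : Finset X) {K : ℕ} (hK : H.card < 4 ^ K)
    (hyp : ∀ U ⊆ H, U.Nonempty → 1 ≤ ((orb act U).card : ℝ) * q ^ U.card) :
    ∑ S ∈ H.powerset, v S ≤ ∑ S : Finset X, v S * ((K : ℝ) * (32 * q)) ^ S.card := by
  have hiter : ∀ k : ℕ, ∃ A ⊆ H, 4 ^ k * A.card ≤ H.card ∧
      ∑ S ∈ H.powerset, v S ≤ load v ((k : ℝ) * (32 * q)) A := by
    intro k
    induction k with
    | zero => exact ⟨H, subset_rfl, by simp, by simpa using load_zero hv0 H⟩
    | succ k ih =>
      obtain ⟨A, hA, hc, hle⟩ := ih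
      obtain ⟨A', hA', hc', hle'⟩ := load_step act hv hv0 hq
        (t := (k : ℝ) * (32 * q)) (by positivity) A (fun U hU => hyp U (hU.trans hA))
      refine ⟨A', hA'.trans hA, ?_, ?_⟩
      · rw [pow_succ, mul_assoc]
        exact le_trans (Nat.mul_le_mul_left _ hc') hc
      · refine hle.trans (hle'.trans (le_of_eq ?_))
        congr 1
        push_cast; ring
  obtain ⟨A, -, hc, hle⟩ := hiter K
  have hA0 : A.card = 0 := by
    by_contra h0
    have : 4 ^ K ≤ 4 ^ K * A.card := Nat.le_mul_of_pos_right _ (Nat.pos_of_ne_zero h0)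
    omega
  rw [card_eq_zero.mp hA0] at hle
  simpa [load] using hle

end Vale.Agent.P064
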